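import Vale.Agent.P027.B.Tr2

set_option linter.all false

/-! Polynomials with parameters as lists of terms. -/

namespace Vale.Agent.P027.B

open MvPolynomial

/-- polynomials with two parameters as lists -/
theorem exists_list {m : ℕ} (G : MvPolynomial (Fin 2 ⊕ Fin m) ℤ) :
    ∃ L : List ((ℤ × (ℕ × ℕ)) × List ℕ), ∀ (u v : ℚ) (y : ℕ → ℚ),
      aeval (Sum.elim ![u, v] (fun j : Fin m => y j)) G =
        (L.map fun t => (t.1.1 : ℚ) * (u ^ t.1.2.1 * v ^ t.1.2.2) * (t.2.map y).prod).sum := by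
  induction G using MvPolynomial.induction_on with
  | C c =>
    refine ⟨[((c, (0, 0)), [])], fun u v y => ?_⟩
    simp
  | add p q hp hq =>
    obtain ⟨L, hL⟩ := hp
    obtain ⟨L', hL'⟩ := hq
    refine ⟨L ++ L', fun u v y => ?_⟩
    rw [map_add, hL, hL', List.map_append, List.sum_append]
  | mul_X p i hp =>
    obtain ⟨L, hL⟩ := hp
    rcases i with i | j
    · fin_cases i
      · refine ⟨L.map fun t => ((t.1.1, (t.1.2.1 + 1, t.1.2.2)), t.2), fun u v y => ?_⟩
        rw [map_mul, hL, aeval_X, List.map_map, ← List.sum_map_mul_right]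
        congr 1
        apply List.map_congr_left
        intro t _
        simp only [Function.comp_apply, Sum.elim_inl]
        show (t.1.1 : ℚ) * (u ^ t.1.2.1 * v ^ t.1.2.2) * (t.2.map y).prod * u = _
        rw [pow_succ]
        ring
      · refine ⟨L.map fun t => ((t.1.1, (t.1.2.1, t.1.2.2 + 1)), t.2), fun u v y => ?_⟩
        rw [map_mul, hL, aeval_X, List.map_map, ← List.sum_map_mul_right]
        congr 1
        apply List.map_congr_left
        intro t _
        simp only [Function.comp_apply, Sum.elim_inl]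
        show (t.1.1 : ℚ) * (u ^ t.1.2.1 * v ^ t.1.2.2) * (t.2.map y).prod * v = _
        rw [pow_succ]
        ring
    · refine ⟨L.map fun t => (t.1, (j : ℕ) :: t.2), fun u v y => ?_⟩
      rw [map_mul, hL, aeval_X, List.map_map, ← List.sum_map_mul_right]
      congr 1
      apply List.map_congr_left
      intro t _
      simp only [Function.comp_apply, Sum.elim_inr, List.map_cons, List.prod_cons]
      ring

/-- substitution of the parameters -/
def cod (L : List ((ℤ × (ℕ × ℕ)) × List ℕ)) (u v : ℕ) : Poly :=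
  L.map fun t => (t.1.1 * ((u ^ t.1.2.1 * v ^ t.1.2.2 : ℕ) : ℤ), t.2)

lemma ev_cod (L : List ((ℤ × (ℕ × ℕ)) × List ℕ)) (u v : ℕ) (y : ℕ → ℚ) : ev y (cod L u v) =
    (L.map fun t => (t.1.1 : ℚ) * ((u : ℚ) ^ t.1.2.1 * (v : ℚ) ^ t.1.2.2) *
      (t.2.map y).prod).sum := by
  unfold ev cod
  rw [List.map_map]
  congr 1
  apply List.map_congr_left
  intro t _
  simp only [Function.comp_apply]
  push_cast
  ring

theorem primrec_npow : Primrec₂ ((· ^ ·) : ℕ → ℕ → ℕ) := Primrec₂.unpaired'.1 Nat.Primrec.pow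

theorem primrec_cod (L : List ((ℤ × (ℕ × ℕ)) × List ℕ)) : Primrec₂ (cod L) := by
  refine Primrec.list_map (f := fun _ : ℕ × ℕ => L)
    (g := fun a t => (t.1.1 * ((a.1 ^ t.1.2.1 * a.2 ^ t.1.2.2 : ℕ) : ℤ), t.2)) (Primrec.const L) ?_
  have h1 : Primrec (fun b : (ℕ × ℕ) × ((ℤ × (ℕ × ℕ)) × List ℕ) => b.2.1.2.1) :=
    Primrec.fst.comp (Primrec.snd.comp (Primrec.fst.comp Primrec.snd))
  have h2 : Primrec (fun b : (ℕ × ℕ) × ((ℤ × (ℕ × ℕ)) × List ℕ) => b.2.1.2.2) :=
    Primrec.snd.comp (Primrec.snd.comp (Primrec.fst.comp Primrec.snd))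
  have h3 : Primrec (fun b : (ℕ × ℕ) × ((ℤ × (ℕ × ℕ)) × List ℕ) =>
      b.1.1 ^ b.2.1.2.1 * b.1.2 ^ b.2.1.2.2) :=
    Primrec.nat_mul.comp (primrec_npow.comp (Primrec.fst.comp Primrec.fst) h1)
      (primrec_npow.comp (Primrec.snd.comp Primrec.fst) h2)
  exact Primrec.pair (primrec_int_mul.comp (Primrec.fst.comp (Primrec.fst.comp Primrec.snd))
    (primrec_int_cast.comp h3)) (Primrec.snd.comp Primrec.snd)

/-- undecidability for one ring -/
theorem undec {m : ℕ} (G : MvPolynomial (Fin 2 ⊕ Fin m) ℤ) {A : Set ℕ}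
    (hA : ¬ ComputablePred (fun a => a ∈ A)) {B : ℕ → ℕ} (hB : Computable B) {T : Set ℕ}
    (hT : ∀ q ∈ T, q.Prime) (h : ∀ a : ℕ, (a ∈ A ↔ ∃ X : Fin m → ℚ, (∀ i, X i ∈ RT T) ∧
      aeval (Sum.elim ![(7 : ℚ) ^ a, (B a : ℚ)] X) G = 0)) :
    ¬ ComputablePred (fun F : Poly => HZ (RT T) F) := by
  intro hc
  apply hA
  obtain ⟨L, hL⟩ := exists_list G
  have h7 : Primrec (fun a : ℕ => 7 ^ a) := primrec_npow.comp (Primrec.const 7) Primrec.id
  have h1 : Computable (fun a : ℕ => cod L (7 ^ a) (B a)) :=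
    (primrec_cod L).to_comp.comp h7.to_comp hB
  refine (cp_comp hc h1).of_eq fun a => ?_
  rw [h a]
  constructor
  · rintro ⟨y, hy, he⟩
    refine ⟨fun j => y j, fun i => hy i, ?_⟩
    rw [hL, ← he, ev_cod]
    push_cast
    rfl
  · rintro ⟨X, hX, he⟩
    refine ⟨fun n => if hn : n < m then X ⟨n, hn⟩ else 0, fun i => ?_, ?_⟩
    · simp only
      split_ifs with hi
      · exact hX _
      · intro q hq hd
        exact (hT q hq).one_lt.ne' (Nat.dvd_one.1 hd)
    · rw [ev_cod]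
      have e : (fun j : Fin m => (fun n : ℕ => if hn : n < m then X ⟨n, hn⟩ else 0) j) = X := by
        funext j
        simp only [Fin.is_lt, dif_pos, Fin.eta]
      have h2 := hL ((7 : ℚ) ^ a) (B a) (fun n : ℕ => if hn : n < m then X ⟨n, hn⟩ else 0)
      rw [e, he] at h2
      push_cast
      exact h2.symm

end Vale.Agent.P027.B
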