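import Vale.Agent.P027.B.Cod
import Vale.Agent.P027.L.AsmI
import Vale.Agent.P027.L.Fin
import Vale.Agent.P027.L.Prim
import Vale.Agent.P027.L.Comp2
import Vale.Agent.P027.L.Law
import Vale.Agent.P027.R4.H297.CompF

set_option linter.all false

/-! Undecidability for sets of primes with few elements. -/

namespace Vale.Agent.P027.B

open Vale.Agent.P345 Vale.Agent.P027 Vale.Agent.P027.D1

theorem cor (g : ℕ → ℕ) (hg : Computable g) (hgm : Monotone g) (hgu : ∀ M, ∃ n, M ≤ g n) :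
    ∃ T : Set ℕ, (∀ q ∈ T, q.Prime) ∧ T.Infinite ∧ ComputablePred (fun q => q ∈ T) ∧
      (∀ᶠ n in Filter.atTop, (T ∩ Set.Iic n).ncard ≤ g n * {k | L.tow k ≤ n}.ncard) ∧
      ¬ ComputablePred (fun F : List (ℤ × List ℕ) => ∃ y : ℕ → ℚ,
        (∀ i, ∀ q ∈ T, ¬ q ∣ (y i).den) ∧
        (F.map fun t => (t.1 : ℚ) * (t.2.map y).prod).sum = 0) := by
  have hL : L.LawL := L.lawL
  obtain ⟨p, hp, hpn⟩ := N1.halting
  have hA : ¬ ComputablePred (fun a => a ∈ {a | p a}) := fun h => hpn h.not.to_re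
  have hne : ∃ a, a ∉ {a | p a} := by
    by_contra hcon
    push Not at hcon
    apply hA
    exact ((Primrec.eq.comp (Primrec.const (0 : ℕ)) (Primrec.const 0)).computablePred).of_eq
      fun a => ⟨fun _ => hcon a, fun _ => rfl⟩
  obtain ⟨B, T, h0, h1, h2, h3, h5, h4⟩ := L.partI hL L.exists_exact
    (fun Kl hKl hN => L.comp hL hKl hN) (A := {a | p a}) hp hg hgm hgu
  obtain ⟨m, G, hG⟩ := L.exists_poly
  have hT : ∀ q ∈ T, q.Prime := fun q hq => (h1 hq).1
  have hRT : L.Rg T (RT T) := by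
    refine ⟨fun t ht q hq hd => ?_, fun t ht q hq => ht q hq⟩
    exact (ht q (hT q hq) hd).2 hq
  refine ⟨T, hT, h5 hne, h2, h3, fun hc => ?_⟩
  refine undec G hA h0 hT (fun a => ?_) hc
  rw [h4 (RT T) hRT a]
  exact hG (RT T) (fun z => hRT.int z) _ _

end Vale.Agent.P027.B
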