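import Vale.Agent.P027.B.Tools

set_option linter.all false

/-! Sparse computable infinite sets of primes. -/

namespace Vale.Agent.P027.B

theorem primrec_prime : PrimrecPred fun p : ℕ => p.Prime := by
  have all_lt : ∀ {α : Type} [Primcodable α] {P : ℕ → α → Prop} {g : α → ℕ}, PrimrecRel P →
      Primrec g → PrimrecPred fun a => ∀ x < g a, P x a := by
    intro α _ P g hP hg
    have h1 := (PrimrecRel.forall_mem_list hP).comp (Primrec.list_range.comp hg) Primrec.id
    exact h1.of_eq (fun a => by simp)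
  have prime_iff : ∀ p : ℕ, p.Prime ↔ 2 ≤ p ∧ ∀ a < p, ∀ b < p, a * b ≠ p := by
    intro p
    constructor
    · intro hp
      refine ⟨hp.two_le, fun a ha b hb h => ?_⟩
      have h1 : a ∣ p := ⟨b, h.symm⟩
      rcases (Nat.dvd_prime hp).1 h1 with h2 | h2
      · subst h2; omega
      · omega
    · rintro ⟨h2, h⟩
      rw [Nat.prime_def]
      refine ⟨h2, fun m hm => ?_⟩
      obtain ⟨c, hc⟩ := hm
      have hm0 : m ≠ 0 := by rintro rfl; omega
      have hc0 : c ≠ 0 := by rintro rfl; omega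
      have hmp : m ≤ p := Nat.le_of_dvd (by omega) ⟨c, hc⟩
      have hcp : c ≤ p := Nat.le_of_dvd (by omega) ⟨m, by rw [hc]; ring⟩
      rcases hmp.lt_or_eq with h3 | h3
      · rcases hcp.lt_or_eq with h4 | h4
        · exact absurd hc.symm (h m h3 c h4)
        · left
          have h5 : m * p = 1 * p := by rw [one_mul]; nth_rewrite 2 [hc]; rw [h4]
          exact Nat.eq_of_mul_eq_mul_right (by omega) h5
      · right; exact h3
  have h1 : PrimrecPred fun u : ℕ × ℕ => ∀ b < u.2, u.1 * b ≠ u.2 := by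
    apply all_lt (P := fun b (u : ℕ × ℕ) => u.1 * b ≠ u.2) _ Primrec.snd
    have : PrimrecPred fun v : ℕ × (ℕ × ℕ) => v.2.1 * v.1 = v.2.2 :=
      Primrec.eq.comp (Primrec.nat_mul.comp (Primrec.fst.comp Primrec.snd) Primrec.fst)
        (Primrec.snd.comp Primrec.snd)
    exact this.not
  have h2 : PrimrecPred fun p : ℕ => ∀ a < p, ∀ b < p, a * b ≠ p := by
    apply all_lt (P := fun a (p : ℕ) => ∀ b < p, a * b ≠ p) _ Primrec.id
    exact h1
  exact ((Primrec.nat_le.comp (Primrec.const 2) Primrec.id).and h2).of_eq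
      (fun p => (prime_iff p).symm)

theorem cp_of_primrec {α : Type} [Primcodable α] {p : α → Prop} (h : PrimrecPred p) :
    ComputablePred p := by
  obtain ⟨hd, hp⟩ := h
  exact ⟨hd, hp.to_comp⟩

theorem cp_prime : ComputablePred fun p : ℕ => p.Prime := cp_of_primrec primrec_prime

/-- **sparse sets of primes** -/
theorem exists_sparse {g : ℕ → ℕ} (hg : Computable g) (hm : Monotone g)
    (hu : ∀ M, ∃ n, M ≤ g n) : ∃ T : Set ℕ, (∀ q ∈ T, q.Prime) ∧ T.Infinite ∧
      ComputablePred (fun q => q ∈ T) ∧ ∀ n, (T ∩ Set.Iic n).ncard ≤ g n := by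
  refine ⟨{q | q.Prime ∧ 1 ≤ g q ∧ ∀ p < q, p.Prime → g p < g q}, fun q hq => hq.1, ?_, ?_, ?_⟩
  · -- infinitely many
    refine Set.infinite_of_not_bddAbove ?_
    rintro ⟨N, hN⟩
    obtain ⟨n, hn⟩ := hu (g N + 1)
    have hex : ∃ q : ℕ, q.Prime ∧ g N + 1 ≤ g q := by
      obtain ⟨q, hq, hqp⟩ := Nat.exists_infinite_primes n
      exact ⟨q, hqp, hn.trans (hm hq)⟩
    classical
    obtain ⟨h1, h2⟩ := Nat.find_spec hex
    have h3 : N < Nat.find hex := by
      by_contra hc
      have := hm (not_lt.1 hc)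
      omega
    have h4 : Nat.find hex ∈ {q | q.Prime ∧ 1 ≤ g q ∧ ∀ p < q, p.Prime → g p < g q} := by
      refine ⟨h1, by omega, fun p hp hpp => ?_⟩
      have h5 := Nat.find_min hex hp
      have h6 : g p < g N + 1 := by
        by_contra hc
        exact h5 ⟨hpp, not_lt.1 hc⟩
      omega
    have := hN h4
    omega
  · -- computable
    have h1 : ComputablePred fun q : ℕ => 1 ≤ g q :=
      cp_comp (cp_of_primrec (Primrec.nat_le.comp (Primrec.const 1) Primrec.id)) hg
    have h2 : ComputablePred fun u : ℕ × ℕ => (u.2.Prime → g u.2 < g u.1) := by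
      refine cp_imp (cp_comp cp_prime Computable.snd) ?_
      have h3 : ComputablePred fun u : ℕ × ℕ => u.1 < u.2 :=
        cp_of_primrec (Primrec.nat_lt.comp Primrec.fst Primrec.snd)
      exact cp_comp h3 (Computable.pair (hg.comp Computable.snd) (hg.comp Computable.fst))
    have h4 := cp_all (p := fun q p => p.Prime → g p < g q) h2 Computable.id
    exact cp_and cp_prime (cp_and h1 h4)
  · -- few elements
    intro n
    have hinj : Set.InjOn g ({q | q.Prime ∧ 1 ≤ g q ∧ ∀ p < q, p.Prime → g p < g q} ∩ Set.Iic n) := by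
      intro a ha b hb hab
      rcases lt_trichotomy a b with h | h | h
      · have := hb.1.2.2 a h ha.1.1
        omega
      · exact h
      · have := ha.1.2.2 b h hb.1.1
        omega
    rw [← Set.ncard_image_of_injOn hinj]
    have hsub : g '' ({q | q.Prime ∧ 1 ≤ g q ∧ ∀ p < q, p.Prime → g p < g q} ∩ Set.Iic n) ⊆
        (Finset.Icc 1 (g n) : Finset ℕ) := by
      rintro _ ⟨q, ⟨hq, hqn⟩, rfl⟩
      rw [Finset.coe_Icc]
      exact ⟨hq.2.1, hm hqn⟩
    have h1 := Set.ncard_le_ncard hsub (Finset.finite_toSet _)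
    rw [Set.ncard_coe_finset, Nat.card_Icc] at h1
    omega

end Vale.Agent.P027.B
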