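import Vale.Agent.P027.B.Tr2

set_option linter.all false

/-! If zeros in a ring that omits two primes can be recognized, so can rational zeros. -/

namespace Vale.Agent.P027.B

/-- the homogeneous form with a new variable that is not zero in the ring -/
def two (p p' : ℕ) (F : Poly) : Poly :=
  sq (hom 1 (len (ren (fun i => 2 * i) F)) (ren (fun i => 2 * i) F)) ++
    sq [(1, [1, 3]), (-((p : ℤ) * p'), [5, 7]), ((p : ℤ), [5]), ((p' : ℤ), [7]), (-1, [])]

theorem primrec_two (p p' : ℕ) : Primrec (two p p') := by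
  have h1 : Primrec (ren (fun i => 2 * i)) :=
    primrec_ren (Primrec.nat_mul.comp (Primrec.const 2) Primrec.id)
  exact Primrec.list_append.comp (primrec_sq.comp ((primrec_hom' 1).comp h1)) (Primrec.const _)

lemma exists_uvw {p p' : ℕ} (hp : p.Prime) (hp' : p'.Prime) (hne : p ≠ p') {B : ℕ} (hB : B ≠ 0) :
    ∃ u v w : ℤ, (B : ℤ) * w = (p * u - 1) * (p' * v - 1) := by
  obtain ⟨k, c, hc, hBc⟩ := Nat.exists_eq_pow_mul_and_not_dvd hB p hp.ne_one
  have h1 : IsCoprime (p : ℤ) (c : ℤ) := by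
    rw [Nat.isCoprime_iff_coprime, Nat.Prime.coprime_iff_not_dvd hp]
    exact hc
  have h2 : IsCoprime (p' : ℤ) ((p : ℤ) ^ k) := by
    refine IsCoprime.pow_right ?_
    rw [Nat.isCoprime_iff_coprime, Nat.coprime_primes hp' hp]
    exact hne.symm
  obtain ⟨a, b, hab⟩ := h1
  obtain ⟨a', b', hab'⟩ := h2
  refine ⟨a, a', b * b', ?_⟩
  rw [hBc]
  push_cast
  have e1 : (p : ℤ) * a - 1 = -(b * c) := by linarith
  have e2 : (p' : ℤ) * a' - 1 = -(b' * (p : ℤ) ^ k) := by linarith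
  rw [e1, e2]
  ring

lemma ev_lin (z : ℕ → ℚ) (p p' : ℕ) :
    ev z [(1, [1, 3]), (-((p : ℤ) * p'), [5, 7]), ((p : ℤ), [5]), ((p' : ℤ), [7]), (-1, [])] =
      z 1 * z 3 - (p * z 5 - 1) * (p' * z 7 - 1) := by
  simp only [ev_cons, ev_nil, List.map_cons, List.map_nil, List.prod_cons, List.prod_nil]
  push_cast
  ring

lemma one_ne_mul {T : Set ℕ} (hT : ∀ q ∈ T, q.Prime) {p : ℕ} (hp : p ∈ T) {u : ℚ} (hu : u ∈ RT T) :
    (p : ℚ) * u - 1 ≠ 0 := by
  intro h
  have hpp := hT p hp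
  have hp0 : (p : ℚ) ≠ 0 := by exact_mod_cast hpp.ne_zero
  have h1 : u = 1 / (p : ℚ) := by
    rw [eq_div_iff hp0]
    linarith
  have h2 := hu p hp
  apply h2
  rw [h1]
  have h3 : ((1 : ℚ) / (p : ℚ)).den = p := by
    rw [one_div, Rat.inv_natCast_den_of_pos hpp.pos]
  rw [h3]

theorem two_iff {T : Set ℕ} (hT : ∀ q ∈ T, q.Prime) {p p' : ℕ} (hp : p ∈ T) (hp' : p' ∈ T)
    (hne : p ≠ p') (F : Poly) : HZ (RT T) (two p p' F) ↔ HZ Set.univ F := by
  have hsq : ∀ a b : ℚ, a ^ 2 + b ^ 2 = 0 → a = 0 ∧ b = 0 := by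
    intro a b h
    have h1 := sq_nonneg a
    have h2 := sq_nonneg b
    exact ⟨pow_eq_zero_iff (n := 2) (by norm_num) |>.1 (by linarith),
      pow_eq_zero_iff (n := 2) (by norm_num) |>.1 (by linarith)⟩
  constructor
  · rintro ⟨y, hy, h⟩
    unfold two at h
    rw [ev_append, ev_sq, ev_sq] at h
    obtain ⟨h1, h2⟩ := hsq _ _ h
    rw [ev_lin] at h2
    have h5 := one_ne_mul hT hp (hy 5)
    have h7 := one_ne_mul hT hp' (hy 7)
    have hy1 : y 1 ≠ 0 := by
      intro h0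
      rw [h0, zero_mul, zero_sub, neg_eq_zero] at h2
      rcases mul_eq_zero.1 h2 with h3 | h3
      · exact h5 h3
      · exact h7 h3
    rw [ev_hom (fun t ht => le_len ht) hy1] at h1
    rcases mul_eq_zero.1 h1 with h3 | h3
    · exact absurd h3 (pow_ne_zero _ hy1)
    · rw [ev_ren] at h3
      exact ⟨_, fun _ => trivial, h3⟩
  · rintro ⟨y, -, h⟩
    obtain ⟨B, a, hB, ha, -⟩ := exists_common F y
    obtain ⟨u, v, w, huvw⟩ := exists_uvw (hT p hp) (hT p' hp') hne hB
    have hBq : (B : ℚ) ≠ 0 := by exact_mod_cast hB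
    obtain ⟨z, hz0, hz1, hz3, hz5, hz7, hzi⟩ : ∃ z : ℕ → ℚ, (∀ i, z (2 * i) = a i) ∧ z 1 = B ∧
        z 3 = w ∧ z 5 = u ∧ z 7 = v ∧ ∀ i, ∃ n : ℤ, z i = n := by
      refine ⟨fun n => if n % 2 = 0 then (a (n / 2) : ℚ) else if n = 1 then (B : ℚ) else
        if n = 3 then (w : ℚ) else if n = 5 then (u : ℚ) else (v : ℚ), fun i => ?_, ?_, ?_, ?_, ?_,
        fun i => ?_⟩
      · have e1 : 2 * i % 2 = 0 := by omega
        have e2 : 2 * i / 2 = i := by omega
        simp only [e1, e2, if_true]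
      · norm_num
      · norm_num
      · norm_num
      · norm_num
      · simp only
        split_ifs
        · exact ⟨_, rfl⟩
        · exact ⟨(B : ℤ), by norm_num⟩
        · exact ⟨_, rfl⟩
        · exact ⟨_, rfl⟩
        · exact ⟨_, rfl⟩
    refine ⟨z, fun i => ?_, ?_⟩
    · obtain ⟨n, hn⟩ := hzi i
      rw [hn]
      exact int_mem_RT hT n
    · unfold two
      have hz1' : z 1 ≠ 0 := by rw [hz1]; exact hBq
      rw [ev_append, ev_sq, ev_sq, ev_lin, ev_hom (fun t ht => le_len ht) hz1', ev_ren]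
      have e1 : ev (fun i => z (2 * i) / z 1) F = ev y F := by
        apply ev_congr
        intro i hi
        rw [hz0, hz1, ha i hi]
      rw [e1, h, hz1, hz3, hz5, hz7]
      have e2 : (B : ℚ) * w = (p * u - 1) * (p' * v - 1) := by exact_mod_cast huvw
      rw [e2]
      ring

/-- **rational zeros reduce to zeros in a ring that omits two primes** -/
theorem two_red {T : Set ℕ} (hT : ∀ q ∈ T, q.Prime) {p p' : ℕ} (hp : p ∈ T) (hp' : p' ∈ T)
    (hne : p ≠ p') (h : ComputablePred (fun F => HZ (RT T) F)) :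
    ComputablePred (fun F => HZ Set.univ F) :=
  (cp_comp h (primrec_two p p').to_comp).of_eq fun F => two_iff hT hp hp' hne F

end Vale.Agent.P027.B
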