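import Vale.Agent.P027.B.One
import Vale.Agent.P027.B.Two
import Vale.Agent.P027.B.Spa

set_option linter.all false

/-! The rational numbers and arbitrarily sparse sets of primes. -/

namespace Vale.Agent.P027.B

open Vale.Agent.P027

theorem dich : (¬ ComputablePred (fun F : List (ℤ × List ℕ) =>
      ∃ y : ℕ → ℚ, (F.map fun t => (t.1 : ℚ) * (t.2.map y).prod).sum = 0)) ↔
    ∀ g : ℕ → ℕ, Computable g → Monotone g → (∀ M, ∃ n, M ≤ g n) →
      ∃ T : Set ℕ, (∀ q ∈ T, q.Prime) ∧ T.Infinite ∧ ComputablePred (fun q => q ∈ T) ∧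
        (∀ᶠ n in Filter.atTop, (T ∩ Set.Iic n).ncard ≤ g n) ∧
        ¬ ComputablePred (fun F : List (ℤ × List ℕ) => ∃ y : ℕ → ℚ,
          (∀ i, ∀ q ∈ T, ¬ q ∣ (y i).den) ∧
          (F.map fun t => (t.1 : ℚ) * (t.2.map y).prod).sum = 0) := by
  have e : (ComputablePred (fun F : List (ℤ × List ℕ) =>
      ∃ y : ℕ → ℚ, (F.map fun t => (t.1 : ℚ) * (t.2.map y).prod).sum = 0)) ↔
      ComputablePred (fun F : Poly => HZ Set.univ F) := by
    constructor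
    · intro h
      refine h.of_eq fun F => ?_
      exact ⟨fun ⟨y, hy⟩ => ⟨y, fun i => Set.mem_univ _, hy⟩, fun ⟨y, _, hy⟩ => ⟨y, hy⟩⟩
    · intro h
      refine h.of_eq fun F => ?_
      exact ⟨fun ⟨y, _, hy⟩ => ⟨y, hy⟩, fun ⟨y, hy⟩ => ⟨y, fun i => Set.mem_univ _, hy⟩⟩
  rw [e]
  constructor
  · intro hQ g hg hm hu
    obtain ⟨T, hT, hinf, hc, hs⟩ := exists_sparse hg hm hu
    refine ⟨T, hT, hinf, hc, Filter.Eventually.of_forall hs, fun h => hQ ?_⟩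
    obtain ⟨p, hp⟩ := hinf.nonempty
    obtain ⟨p', hp', hne⟩ := hinf.exists_gt p
    exact two_red hT hp hp' hne.ne h
  · intro h hQ
    obtain ⟨g, hg, hm, hu, hT⟩ := one hQ
    obtain ⟨T, h1, -, h3, h4, h5⟩ := h g hg hm hu
    exact h5 (hT T h1 h3 h4)

end Vale.Agent.P027.B
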