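import Vale.Agent.P027.B.Tr2
import Vale.Agent.P027.B.Spa

set_option linter.all false

/-! If there is an algorithm for the rational numbers, there is one for all sufficiently sparse
computable sets of primes. -/

namespace Vale.Agent.P027.B

open Vale.Agent.P027

section pred

variable {α β : Type} [Primcodable α] [Primcodable β]

theorem cp_list_all [Inhabited β] {p : α → β → Prop}
    (hp : ComputablePred (fun a : α × β => p a.1 a.2)) {f : α → List β} (hf : Computable f) :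
    ComputablePred (fun a => ∀ b ∈ f a, p a b) := by
  have h1 : ComputablePred (fun a : α × ℕ => p a.1 ((f a.1).getD a.2 default)) :=
    cp_comp (f := fun a : α × ℕ => (a.1, (f a.1).getD a.2 default)) hp
      (Computable.pair Computable.fst (((Primrec.list_getD default).to_comp).comp
        (hf.comp Computable.fst) Computable.snd))
  refine (cp_all (p := fun a n => p a ((f a).getD n default)) h1
    (Computable.list_length.comp hf)).of_eq fun a => ?_
  constructor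
  · intro h b hb
    obtain ⟨n, hn, rfl⟩ := List.getElem_of_mem hb
    have := h n hn
    rwa [List.getD_eq_getElem _ _ hn] at this
  · intro h n hn
    rw [List.getD_eq_getElem _ _ hn]
    exact h _ (List.getElem_mem hn)

theorem cp_list_ex [Inhabited β] {p : α → β → Prop}
    (hp : ComputablePred (fun a : α × β => p a.1 a.2)) {f : α → List β} (hf : Computable f) :
    ComputablePred (fun a => ∃ b ∈ f a, p a b) := by
  refine (cp_list_all (p := fun a b => ¬ p a b) hp.not hf).not.of_eq fun a => ?_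
  push Not
  rfl

theorem cp_pr {p : α → Prop} (h : PrimrecPred p) : ComputablePred p := h.computablePred

/-- least solutions -/
theorem cp_find {p : α → ℕ → Prop} (hp : ComputablePred (fun a : α × ℕ => p a.1 a.2))
    (hex : ∀ a, ∃ n, p a n) :
    ∃ f : α → ℕ, Computable f ∧ ∀ a, p a (f a) ∧ ∀ n < f a, ¬ p a n := by
  classical
  obtain ⟨g, hg, hgp⟩ := ComputablePred.computable_iff.1 hp
  have hg' : ∀ a n, (p a n ↔ g (a, n) = true) := fun a n => by
    have := congrFun hgp (a, n)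
    simp only at this
    rw [this]
  have h1 : Partrec (fun a => Nat.rfind fun n => (Part.some (g (a, n)) : Part Bool)) :=
    Partrec.rfind (hg.partrec)
  refine ⟨fun a => Nat.find (hex a), ?_, fun a => ⟨Nat.find_spec (hex a),
    fun n hn => Nat.find_min (hex a) hn⟩⟩
  refine Partrec.of_eq h1 (fun a => ?_)
  refine Part.eq_some_iff.2 (Nat.mem_rfind.2 ⟨?_, ?_⟩)
  · have := (hg' a _).1 (Nat.find_spec (hex a))
    rw [this]
    exact Part.mem_some _
  · intro m hm
    have h2 := Nat.find_min (hex a) hm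
    have h3 : g (a, m) = false := by
      by_contra hcon
      exact h2 ((hg' a m).2 (by simpa using hcon))
    rw [h3]
    exact Part.mem_some _

end pred

/-! ### Decidable arithmetic -/

theorem pr_dvd : PrimrecPred (fun a : ℕ × ℕ => a.1 ∣ a.2) :=
  (Primrec.eq.comp (Primrec.nat_mod.comp Primrec.snd Primrec.fst) (Primrec.const 0)).of_eq
    fun a => (Nat.dvd_iff_mod_eq_zero).symm

theorem cp_valid : ComputablePred (fun a : ℕ × ℕ => Valid a.1 a.2) := by
  unfold Valid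
  have hq : Primrec (fun a : ℕ × ℕ => a.1) := Primrec.fst
  have hD : Primrec (fun a : ℕ × ℕ => a.2) := Primrec.snd
  refine cp_and (cp_comp cp_prime Computable.fst) (cp_imp ?_ (cp_and ?_ (cp_and ?_ (cp_and ?_ ?_))))
  · exact cp_pr (Primrec.eq.comp hq (Primrec.const 2)).not
  · exact cp_pr (Primrec.nat_lt.comp (Primrec.nat_mul.comp hq (Primrec.nat_add.comp hq
      (Primrec.const 4))) hD)
  · exact cp_comp cp_prime Computable.snd
  · exact cp_pr (Primrec.eq.comp (Primrec.nat_mod.comp hD (Primrec.const 4)) (Primrec.const 3))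
  · have h : ComputablePred (fun b : (ℕ × ℕ) × ℕ => (b.2 * b.2) % b.1.1 ≠ b.1.2 % b.1.1) :=
      cp_pr (Primrec.eq.comp (Primrec.nat_mod.comp (Primrec.nat_mul.comp Primrec.snd Primrec.snd)
        (Primrec.fst.comp Primrec.fst)) (Primrec.nat_mod.comp (Primrec.snd.comp Primrec.fst)
        (Primrec.fst.comp Primrec.fst))).not
    exact cp_all (p := fun (a : ℕ × ℕ) x => (x * x) % a.1 ≠ a.2 % a.1) h Computable.fst

theorem primrec_fact : Primrec Nat.factorial := by
  have h : Primrec₂ (fun (n : ℕ) (r : ℕ) => (n + 1) * r) :=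
    Primrec.nat_mul.comp (Primrec.succ.comp Primrec.fst) Primrec.snd
  refine (Primrec.nat_rec₁ 1 h).of_eq (fun n => ?_)
  induction n with
  | zero => rfl
  | succ n ih => rw [Nat.factorial_succ, ← ih]

/-- codes of finite sets of primes -/
lemma exists_code {S : Set ℕ} (hS : ∀ q ∈ S, q.Prime) (N : ℕ) : ∃ m, m ≤ N.factorial ∧
    ∀ q : ℕ, q.Prime → (q ∣ m ↔ q ∈ S ∧ q ≤ N) := by
  classical
  induction N with
  | zero =>
    refine ⟨1, le_rfl, fun q hq => ?_⟩
    constructor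
    · intro h
      exact absurd (Nat.dvd_one.1 h) hq.one_lt.ne'
    · rintro ⟨-, h⟩
      have := hq.pos
      omega
  | succ N ih =>
    obtain ⟨m, hm, hd⟩ := ih
    by_cases hN : N + 1 ∈ S
    · refine ⟨(N + 1) * m, ?_, fun q hq => ?_⟩
      · rw [Nat.factorial_succ]
        exact Nat.mul_le_mul_left _ hm
      · rw [hq.dvd_mul, hd q hq, Nat.prime_dvd_prime_iff_eq hq (hS _ hN)]
        constructor
        · rintro (h | ⟨h1, h2⟩)
          · rw [h]; exact ⟨hN, le_rfl⟩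
          · exact ⟨h1, by omega⟩
        · rintro ⟨h1, h2⟩
          rcases Nat.lt_or_ge N q with h | h
          · left; omega
          · exact Or.inr ⟨h1, h⟩
    · refine ⟨m, ?_, fun q hq => ?_⟩
      · exact hm.trans (Nat.factorial_le (by omega))
      · rw [hd q hq]
        constructor
        · rintro ⟨h1, h2⟩
          exact ⟨h1, by omega⟩
        · rintro ⟨h1, h2⟩
          refine ⟨h1, ?_⟩
          by_contra hcon
          have : q = N + 1 := by omega
          rw [this] at h1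
          exact hN h1

/-- the polynomial with a given code -/
def Fe (e : ℕ) : Poly := (Encodable.decode e : Option Poly).getD []

/-- data -/
abbrev Item : Type := List (ℕ × ℕ) × ℕ × List ℤ

/-- the data with a given code -/
def dt (c : ℕ) : Item := (Encodable.decode c : Option Item).getD ([], 0, [])

/-- data for a polynomial and a finite set of primes -/
def Good (e N m : ℕ) (t : Item) : Prop :=
  (∀ p ∈ t.1, Valid p.1 p.2 ∧ p.1 ≤ N ∧ p.1 ∣ m) ∧
  (∀ q < N + 1, q.Prime → q ∣ m → ∃ p ∈ t.1, p.1 = q) ∧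
  (HZ Set.univ (tr (Fe e) t.1) →
    t.2.1 ≠ 0 ∧ (∀ p ∈ t.1, ¬ p.1 ∣ t.2.1) ∧ evI (Fe e) t.2.1 t.2.2 = 0)

lemma exists_good (e N m : ℕ) : ∃ t, Good e N m t := by
  classical
  have hD : ∀ q : ℕ, ∃ D, q.Prime → Valid q D := by
    intro q
    by_cases hq : q.Prime
    · obtain ⟨D, hD⟩ := exists_valid hq
      exact ⟨D, fun _ => hD⟩
    · exact ⟨0, fun h => absurd h hq⟩
  choose D hD using hD
  obtain ⟨l, hl⟩ : ∃ l : List (ℕ × ℕ), l =
      ((List.range (N + 1)).filter fun q => q.Prime ∧ q ∣ m).map fun q => (q, D q) := ⟨_, rfl⟩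
  have hmem : ∀ p : ℕ × ℕ, p ∈ l ↔ (p.1 < N + 1 ∧ p.1.Prime ∧ p.1 ∣ m) ∧ p.2 = D p.1 := by
    intro p
    rw [hl, List.mem_map]
    constructor
    · rintro ⟨q, hq, rfl⟩
      rw [List.mem_filter, List.mem_range] at hq
      exact ⟨⟨hq.1, by simpa using hq.2⟩, rfl⟩
    · rintro ⟨⟨h1, h2⟩, h3⟩
      refine ⟨p.1, ?_, ?_⟩
      · rw [List.mem_filter, List.mem_range]
        exact ⟨h1, by simpa using h2⟩
      · rw [← h3]
  have hval : ∀ p ∈ l, Valid p.1 p.2 := by
    intro p hp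
    obtain ⟨⟨-, h2, -⟩, h4⟩ := (hmem p).1 hp
    rw [h4]
    exact hD _ h2
  have h1 : ∀ p ∈ l, Valid p.1 p.2 ∧ p.1 ≤ N ∧ p.1 ∣ m := by
    intro p hp
    obtain ⟨⟨h1, h2, h3⟩, h4⟩ := (hmem p).1 hp
    exact ⟨hval p hp, by omega, h3⟩
  have h2 : ∀ q < N + 1, q.Prime → q ∣ m → ∃ p ∈ l, p.1 = q := by
    intro q hq hqp hqm
    exact ⟨(q, D q), (hmem _).2 ⟨⟨hq, hqp, hqm⟩, rfl⟩, rfl⟩
  by_cases hz : HZ Set.univ (tr (Fe e) l)
  · have h3 := (tr_iff (Fe e) hval).1 hz
    rw [HZ_iff (fun q hq => by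
      obtain ⟨p, hp, rfl⟩ := hq
      exact (hval p hp).1)] at h3
    obtain ⟨B, s, hB, hq, hs⟩ := h3
    exact ⟨(l, B, s), h1, h2, fun _ => ⟨hB, fun p hp => hq p.1 ⟨p, hp, rfl⟩, hs⟩⟩
  · exact ⟨(l, 0, []), h1, h2, fun h => absurd h hz⟩

/-- the defining property of the next bound -/
def Stp (a : ℕ × ℕ) (M : ℕ) : Prop :=
  a.2 < M ∧ ∀ e < a.1 + 1, ∀ m < a.2.factorial + 1, ∃ c < M, Good e a.2 m (dt c) ∧ (dt c).2.1 < M

lemma exists_stp (a : ℕ × ℕ) : ∃ M, Stp a M := by
  choose t ht using exists_good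
  refine ⟨a.2 + 1 + ∑ e ∈ Finset.range (a.1 + 1), ∑ m ∈ Finset.range (a.2.factorial + 1),
    (Encodable.encode (t e a.2 m) + (t e a.2 m).2.1 + 1), by omega, fun e he m hm => ?_⟩
  have h1 : Encodable.encode (t e a.2 m) + (t e a.2 m).2.1 + 1 ≤
      ∑ e ∈ Finset.range (a.1 + 1), ∑ m ∈ Finset.range (a.2.factorial + 1),
        (Encodable.encode (t e a.2 m) + (t e a.2 m).2.1 + 1) := by
    refine le_trans ?_ (Finset.single_le_sum (f := fun e => ∑ m ∈ Finset.range (a.2.factorial + 1),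
      (Encodable.encode (t e a.2 m) + (t e a.2 m).2.1 + 1)) (fun _ _ => Nat.zero_le _)
      (Finset.mem_range.2 he))
    exact Finset.single_le_sum (f := fun m => Encodable.encode (t e a.2 m) + (t e a.2 m).2.1 + 1)
      (fun _ _ => Nat.zero_le _) (Finset.mem_range.2 hm)
  have h2 : dt (Encodable.encode (t e a.2 m)) = t e a.2 m := by
    unfold dt
    rw [Encodable.encodek]
    rfl
  refine ⟨Encodable.encode (t e a.2 m), by omega, ?_, ?_⟩
  · rw [h2]; exact ht e a.2 m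
  · rw [h2]; omega

lemma computable_Fe : Computable Fe :=
  (Primrec.option_getD.comp Primrec.decode (Primrec.const [])).to_comp

lemma computable_dt : Computable dt :=
  (Primrec.option_getD.comp Primrec.decode (Primrec.const ([], 0, []))).to_comp

/-- solutions -/
def Sol (F : Poly) (t : Item) : Prop :=
  t.2.1 ≠ 0 ∧ (∀ p ∈ t.1, ¬ p.1 ∣ t.2.1) ∧ evI F t.2.1 t.2.2 = 0

lemma cp_ev : ComputablePred (fun a : Poly × ℕ × List ℤ => evI a.1 a.2.1 a.2.2 = 0) :=
  cp_pr (Primrec.eq.comp primrec_evI (Primrec.const 0))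

lemma cp_sol : ComputablePred (fun a : Poly × Item => Sol a.1 a.2) := by
  have h1 : Primrec (fun a : Poly × Item => a.2.2.1) :=
    Primrec.fst.comp (Primrec.snd.comp Primrec.snd)
  have h2 : ComputablePred (fun a : Poly × Item => a.2.2.1 ≠ 0) :=
    cp_pr (Primrec.eq.comp h1 (Primrec.const 0)).not
  have h3 : ComputablePred (fun b : (Poly × Item) × (ℕ × ℕ) => ¬ b.2.1 ∣ b.1.2.2.1) :=
    (cp_comp (f := fun b : (Poly × Item) × (ℕ × ℕ) => (b.2.1, b.1.2.2.1)) (cp_pr pr_dvd)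
      ((Primrec.pair (Primrec.fst.comp Primrec.snd) (h1.comp Primrec.fst)).to_comp)).not
  have h4 : ComputablePred (fun a : Poly × Item => ∀ p ∈ a.2.1, ¬ p.1 ∣ a.2.2.1) :=
    cp_list_all (p := fun (a : Poly × Item) (p : ℕ × ℕ) => ¬ p.1 ∣ a.2.2.1) h3
      (Computable.fst.comp Computable.snd)
  have h5 : Computable (fun a : Poly × Item => ((a.1, a.2.2) : Poly × ℕ × List ℤ)) :=
    Computable.pair Computable.fst (Computable.snd.comp Computable.snd)
  have h6 := cp_and h2 (cp_and h4 (cp_comp cp_ev h5))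
  exact h6.of_eq fun a => Iff.rfl

section main

variable (hQ : ComputablePred (fun F : Poly => HZ Set.univ F))

include hQ

lemma cp_good : ComputablePred (fun a : (ℕ × ℕ × ℕ) × Item => Good a.1.1 a.1.2.1 a.1.2.2 a.2) := by
  have cN : Computable (fun a : (ℕ × ℕ × ℕ) × Item => a.1.2.1) :=
    Computable.fst.comp (Computable.snd.comp Computable.fst)
  have cm : Computable (fun a : (ℕ × ℕ × ℕ) × Item => a.1.2.2) :=
    Computable.snd.comp (Computable.snd.comp Computable.fst)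
  have cF : Computable (fun a : (ℕ × ℕ × ℕ) × Item => Fe a.1.1) :=
    computable_Fe.comp (Computable.fst.comp Computable.fst)
  have cl : Computable (fun a : (ℕ × ℕ × ℕ) × Item => a.2.1) := Computable.fst.comp Computable.snd
  refine cp_and ?_ (cp_and ?_ (cp_imp ?_ ?_))
  · have h : ComputablePred (fun b : ((ℕ × ℕ × ℕ) × Item) × (ℕ × ℕ) =>
        Valid b.2.1 b.2.2 ∧ b.2.1 ≤ b.1.1.2.1 ∧ b.2.1 ∣ b.1.1.2.2) := by
      refine cp_and (cp_comp cp_valid Computable.snd) (cp_and ?_ ?_)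
      · exact cp_comp (f := fun b : ((ℕ × ℕ × ℕ) × Item) × (ℕ × ℕ) => (b.2.1, b.1.1.2.1))
          (p := fun c : ℕ × ℕ => c.1 ≤ c.2) (cp_pr Primrec.nat_le)
          (Computable.pair (Computable.fst.comp Computable.snd) (cN.comp Computable.fst))
      · exact cp_comp (f := fun b : ((ℕ × ℕ × ℕ) × Item) × (ℕ × ℕ) => (b.2.1, b.1.1.2.2))
          (cp_pr pr_dvd)
          (Computable.pair (Computable.fst.comp Computable.snd) (cm.comp Computable.fst))
    exact cp_list_all (p := fun (a : (ℕ × ℕ × ℕ) × Item) (p : ℕ × ℕ) =>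
      Valid p.1 p.2 ∧ p.1 ≤ a.1.2.1 ∧ p.1 ∣ a.1.2.2) h cl
  · have h : ComputablePred (fun b : ((ℕ × ℕ × ℕ) × Item) × ℕ =>
        (b.2.Prime → b.2 ∣ b.1.1.2.2 → ∃ p ∈ b.1.2.1, p.1 = b.2)) := by
      refine cp_imp (cp_comp cp_prime Computable.snd) (cp_imp ?_ ?_)
      · exact cp_comp (f := fun b : ((ℕ × ℕ × ℕ) × Item) × ℕ => (b.2, b.1.1.2.2))
          (cp_pr pr_dvd) (Computable.pair Computable.snd (cm.comp Computable.fst))
      · have h2 : ComputablePred (fun c : (((ℕ × ℕ × ℕ) × Item) × ℕ) × (ℕ × ℕ) =>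
            c.2.1 = c.1.2) :=
          cp_pr (Primrec.eq.comp (Primrec.fst.comp Primrec.snd) (Primrec.snd.comp Primrec.fst))
        exact cp_list_ex (p := fun (b : ((ℕ × ℕ × ℕ) × Item) × ℕ) (p : ℕ × ℕ) => p.1 = b.2) h2
          (cl.comp Computable.fst)
    exact cp_all (p := fun (a : (ℕ × ℕ × ℕ) × Item) (q : ℕ) =>
      (q.Prime → q ∣ a.1.2.2 → ∃ p ∈ a.2.1, p.1 = q)) h (Computable.succ.comp cN)
  · exact cp_comp (f := fun a : (ℕ × ℕ × ℕ) × Item => tr (Fe a.1.1) a.2.1) hQ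
      (primrec_tr.to_comp.comp cF cl)
  · exact cp_comp (f := fun a : (ℕ × ℕ × ℕ) × Item => (Fe a.1.1, a.2)) cp_sol
      (Computable.pair cF Computable.snd)

lemma cp_stp : ComputablePred (fun a : (ℕ × ℕ) × ℕ => Stp a.1 a.2) := by
  have hM : Computable (fun a : (ℕ × ℕ) × ℕ => a.2) := Computable.snd
  refine cp_and (cp_comp (f := fun a : (ℕ × ℕ) × ℕ => (a.1.2, a.2))
    (p := fun c : ℕ × ℕ => c.1 < c.2) (cp_pr Primrec.nat_lt)
    (Computable.pair (Computable.snd.comp Computable.fst) Computable.snd)) ?_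
  have h4 : ComputablePred (fun d : (((((ℕ × ℕ) × ℕ) × ℕ) × ℕ) × ℕ) =>
      Good d.1.1.2 d.1.1.1.1.2 d.1.2 (dt d.2) ∧ (dt d.2).2.1 < d.1.1.1.2) := by
    refine cp_and ?_ ?_
    · exact cp_comp (f := fun d : (((((ℕ × ℕ) × ℕ) × ℕ) × ℕ) × ℕ) =>
        (((d.1.1.2, d.1.1.1.1.2, d.1.2), dt d.2) : (ℕ × ℕ × ℕ) × Item)) (cp_good hQ)
        (Computable.pair (Primrec.pair (Primrec.snd.comp (Primrec.fst.comp Primrec.fst))
          (Primrec.pair (Primrec.snd.comp (Primrec.fst.comp (Primrec.fst.comp (Primrec.fst.comp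
            Primrec.fst)))) (Primrec.snd.comp Primrec.fst))).to_comp
          (computable_dt.comp Computable.snd))
    · exact cp_comp (f := fun d : (((((ℕ × ℕ) × ℕ) × ℕ) × ℕ) × ℕ) =>
        ((dt d.2).2.1, d.1.1.1.2)) (p := fun c : ℕ × ℕ => c.1 < c.2) (cp_pr Primrec.nat_lt)
        (Computable.pair (Computable.fst.comp (Computable.snd.comp (computable_dt.comp
          Computable.snd))) (Primrec.snd.comp (Primrec.fst.comp (Primrec.fst.comp
            Primrec.fst))).to_comp)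
  have h3 : ComputablePred (fun d : ((((ℕ × ℕ) × ℕ) × ℕ) × ℕ) =>
      ∃ c < d.1.1.2, Good d.1.2 d.1.1.1.2 d.2 (dt c) ∧ (dt c).2.1 < d.1.1.2) :=
    cp_ex (p := fun (d : ((((ℕ × ℕ) × ℕ) × ℕ) × ℕ)) (c : ℕ) =>
      Good d.1.2 d.1.1.1.2 d.2 (dt c) ∧ (dt c).2.1 < d.1.1.2) h4
      ((Primrec.snd.comp (Primrec.fst.comp Primrec.fst)).to_comp)
  have h2 : ComputablePred (fun d : (((ℕ × ℕ) × ℕ) × ℕ) => ∀ m < d.1.1.2.factorial + 1,
      ∃ c < d.1.2, Good d.2 d.1.1.2 m (dt c) ∧ (dt c).2.1 < d.1.2) :=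
    cp_all (p := fun (d : (((ℕ × ℕ) × ℕ) × ℕ)) (m : ℕ) =>
      ∃ c < d.1.2, Good d.2 d.1.1.2 m (dt c) ∧ (dt c).2.1 < d.1.2) h3
      ((Primrec.succ.comp (primrec_fact.comp (Primrec.snd.comp (Primrec.fst.comp
        Primrec.fst)))).to_comp)
  exact cp_all (p := fun (a : (ℕ × ℕ) × ℕ) (e : ℕ) => ∀ m < a.1.2.factorial + 1,
    ∃ c < a.2, Good e a.1.2 m (dt c) ∧ (dt c).2.1 < a.2) h2
    ((Primrec.succ.comp (Primrec.fst.comp Primrec.fst)).to_comp)

/-- the bounds -/
lemma exists_bounds : ∃ N : ℕ → ℕ, Computable N ∧ ∀ k, Stp (k, N k) (N (k + 1)) := by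
  obtain ⟨f, hf, hfs⟩ := cp_find (cp_stp hQ) exists_stp
  refine ⟨fun k => Nat.rec (motive := fun _ => ℕ) 0 (fun k r => f (k, r)) k, ?_, fun k => ?_⟩
  · have h : Computable₂ (fun (_ : ℕ) (b : ℕ × ℕ) => f (b.1, b.2)) :=
      Computable₂.mk (hf.comp (Computable.pair (Computable.fst.comp Computable.snd)
        (Computable.snd.comp Computable.snd)))
    exact Computable.nat_rec (f := fun k : ℕ => k) (g := fun _ => (0 : ℕ))
      (h := fun _ b => f (b.1, b.2)) Computable.id (Computable.const 0) h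
  · exact (hfs _).1

end main

/-- polynomials without zeros -/
lemma hz_of_gap {T : Set ℕ} (hT : ∀ q ∈ T, q.Prime) {F : Poly}
    (hF : ∀ l : List (ℕ × ℕ), (∀ p ∈ l, Valid p.1 p.2 ∧ p.1 ∈ T) → HZ Set.univ (tr F l))
    {k N M : ℕ} (hk : Encodable.encode F ≤ k) (hs : Stp (k, N) M)
    (hgap : ∀ q ∈ T, q ≤ N ∨ M < q) : HZ (RT T) F := by
  obtain ⟨m, hm, hmd⟩ := exists_code hT N
  obtain ⟨h0, h1⟩ := hs
  obtain ⟨c, -, ⟨g1, g2, g3⟩, g4⟩ := h1 (Encodable.encode F) (by simp only; omega) m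
    (by simp only; omega)
  have hFe : Fe (Encodable.encode F) = F := by
    unfold Fe
    rw [Encodable.encodek]
    rfl
  rw [hFe] at g3
  have hl : ∀ p ∈ (dt c).1, Valid p.1 p.2 ∧ p.1 ∈ T := by
    intro p hp
    obtain ⟨h2, h3, h4⟩ := g1 p hp
    exact ⟨h2, ((hmd p.1 h2.1).1 h4).1⟩
  obtain ⟨k1, k2, k3⟩ := g3 (hF _ hl)
  rw [HZ_iff hT]
  refine ⟨(dt c).2.1, (dt c).2.2, k1, fun q hq hd => ?_, k3⟩
  rcases hgap q hq with h | h
  · obtain ⟨p, hp, hpq⟩ := g2 q (by simp only; omega) (hT q hq) ((hmd q (hT q hq)).2 ⟨hq, h⟩)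
    apply k2 p hp
    rw [hpq]
    exact hd
  · have := Nat.le_of_dvd (Nat.pos_of_ne_zero k1) hd
    omega

/-- computable sparse sets -/
theorem cp_sparse {N : ℕ → ℕ} (hQ : ComputablePred (fun F : Poly => HZ Set.univ F))
    (hN : ∀ k, Stp (k, N k) (N (k + 1))) {T : Set ℕ} (hT : ∀ q ∈ T, q.Prime)
    (hTc : ComputablePred (fun q => q ∈ T))
    (hgap : ∀ k₀, ∃ k ≥ k₀, ∀ q ∈ T, q ≤ N k ∨ N (k + 1) < q) :
    ComputablePred (fun F : Poly => HZ (RT T) F) := by
  rw [ComputablePred.computable_iff_re_compl_re']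
  constructor
  · have h1 : ComputablePred (fun a : Poly × (ℕ × List ℤ) => a.2.1 ≠ 0 ∧
        (∀ q < a.2.1 + 1, q ∈ T → ¬ q ∣ a.2.1) ∧ evI a.1 a.2.1 a.2.2 = 0) := by
      refine cp_and (cp_pr (Primrec.eq.comp (Primrec.fst.comp Primrec.snd)
        (Primrec.const 0)).not) (cp_and ?_ (cp_pr (Primrec.eq.comp primrec_evI (Primrec.const 0))))
      have h : ComputablePred (fun b : (Poly × (ℕ × List ℤ)) × ℕ => (b.2 ∈ T → ¬ b.2 ∣ b.1.2.1)) :=
        cp_imp (cp_comp hTc Computable.snd)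
          (cp_comp (f := fun b : (Poly × (ℕ × List ℤ)) × ℕ => (b.2, b.1.2.1)) (cp_pr pr_dvd)
            ((Primrec.pair Primrec.snd (Primrec.fst.comp (Primrec.snd.comp
              Primrec.fst))).to_comp)).not
      exact cp_all (p := fun (a : Poly × (ℕ × List ℤ)) (q : ℕ) => (q ∈ T → ¬ q ∣ a.2.1)) h
        ((Primrec.succ.comp (Primrec.fst.comp Primrec.snd)).to_comp)
    refine (re_ex (p := fun (F : Poly) (b : ℕ × List ℤ) => b.1 ≠ 0 ∧
        (∀ q < b.1 + 1, q ∈ T → ¬ q ∣ b.1) ∧ evI F b.1 b.2 = 0) h1).of_eq fun F => ?_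
    rw [HZ_iff hT]
    constructor
    · rintro ⟨⟨B, s⟩, h2, h3, h4⟩
      refine ⟨B, s, h2, fun q hq hd => ?_, h4⟩
      have := Nat.le_of_dvd (Nat.pos_of_ne_zero h2) hd
      exact h3 q (by simp only; omega) hq hd
    · rintro ⟨B, s, h2, h3, h4⟩
      exact ⟨(B, s), h2, fun q _ hq => h3 q hq, h4⟩
  · have h1 : ComputablePred (fun a : Poly × List (ℕ × ℕ) =>
        (∀ p ∈ a.2, Valid p.1 p.2 ∧ p.1 ∈ T) ∧ ¬ HZ Set.univ (tr a.1 a.2)) := by
      refine cp_and ?_ (cp_comp hQ primrec_tr.to_comp).not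
      have h : ComputablePred (fun b : (Poly × List (ℕ × ℕ)) × (ℕ × ℕ) =>
          Valid b.2.1 b.2.2 ∧ b.2.1 ∈ T) :=
        cp_and (cp_comp cp_valid Computable.snd) (cp_comp hTc (Computable.fst.comp Computable.snd))
      exact cp_list_all (p := fun (a : Poly × List (ℕ × ℕ)) (p : ℕ × ℕ) =>
        Valid p.1 p.2 ∧ p.1 ∈ T) h Computable.snd
    refine (re_ex (p := fun (F : Poly) (l : List (ℕ × ℕ)) =>
        (∀ p ∈ l, Valid p.1 p.2 ∧ p.1 ∈ T) ∧ ¬ HZ Set.univ (tr F l)) h1).of_eq fun F => ?_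
    constructor
    · rintro ⟨l, hl, hn⟩ hz
      apply hn
      rw [tr_iff F (fun p hp => (hl p hp).1)]
      refine HZ_mono (RT_anti ?_) hz
      rintro q ⟨p, hp, rfl⟩
      exact (hl p hp).2
    · intro hz
      by_contra hcon
      push Not at hcon
      apply hz
      obtain ⟨k, hk, hg⟩ := hgap (Encodable.encode F)
      exact hz_of_gap hT hcon hk (hN k) hg

/-- gaps -/
lemma exists_gap {N : ℕ → ℕ} (hN : ∀ k, N k < N (k + 1)) {T : Set ℕ} {k₁ : ℕ}
    (hT : ∀ k ≥ k₁, (T ∩ Set.Iic (N k)).ncard ≤ (k + 1) / 2) (k₀ : ℕ) :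
    ∃ k ≥ k₀, ∀ q ∈ T, q ≤ N k ∨ N (k + 1) < q := by
  by_contra hcon
  push Not at hcon
  have key : ∀ j, j ≤ (T ∩ Set.Iic (N (k₀ + j))).ncard := by
    intro j
    induction j with
    | zero => exact Nat.zero_le _
    | succ j ih =>
      obtain ⟨q, hq, h1, h2⟩ := hcon (k₀ + j) (by omega)
      refine Nat.succ_le_of_lt (lt_of_le_of_lt ih ?_)
      have hlt := hN (k₀ + j)
      apply Set.ncard_lt_ncard
      · rw [Set.ssubset_def]
        constructor
        · rintro x ⟨hx, hx'⟩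
          rw [Set.mem_Iic] at hx'
          exact ⟨hx, by rw [Set.mem_Iic, ← add_assoc]; omega⟩
        · intro h
          have := (h ⟨hq, by rw [Set.mem_Iic, ← add_assoc]; exact h2⟩).2
          rw [Set.mem_Iic] at this
          omega
      · exact (Set.finite_Iic _).subset Set.inter_subset_right
  have h1 := key (k₀ + k₁ + 2)
  have h2 := hT (k₀ + (k₀ + k₁ + 2)) (by omega)
  omega

/-- if there is an algorithm for the rational numbers, there is one for all sufficiently sparse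
computable sets of primes -/
theorem one (hQ : ComputablePred (fun F : Poly => HZ Set.univ F)) :
    ∃ g : ℕ → ℕ, Computable g ∧ Monotone g ∧ (∀ M, ∃ n, M ≤ g n) ∧
      ∀ T : Set ℕ, (∀ q ∈ T, q.Prime) → ComputablePred (fun q => q ∈ T) →
        (∀ᶠ n in Filter.atTop, (T ∩ Set.Iic n).ncard ≤ g n) →
          ComputablePred (fun F : Poly => HZ (RT T) F) := by
  obtain ⟨N, hNc, hN⟩ := exists_bounds hQ
  have hlt : ∀ k, N k < N (k + 1) := fun k => (hN k).1
  have hmono : StrictMono N := strictMono_nat_of_lt_succ hlt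
  have hp : ComputablePred (fun a : ℕ × ℕ => a.1 < N a.2) :=
    cp_comp (f := fun a : ℕ × ℕ => (a.1, N a.2)) (p := fun c : ℕ × ℕ => c.1 < c.2)
      (cp_pr Primrec.nat_lt) (Computable.pair Computable.fst (hNc.comp Computable.snd))
  obtain ⟨f, hf, hfs⟩ := cp_find (p := fun n k => n < N k) hp
    (fun n => ⟨n + 1, lt_of_lt_of_le (Nat.lt_succ_self n) (hmono.le_apply)⟩)
  have hfN : ∀ k, f (N k) = k + 1 := by
    intro k
    obtain ⟨h1, h2⟩ := hfs (N k)
    have h3 : k < f (N k) := hmono.lt_iff_lt.1 h1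
    by_contra hne
    exact h2 (k + 1) (by omega) (hlt k)
  refine ⟨fun n => f n / 2, ?_, ?_, ?_, ?_⟩
  · exact (Primrec.nat_div.to_comp).comp hf (Computable.const 2)
  · intro a b hab
    apply Nat.div_le_div_right
    by_contra hcon
    push Not at hcon
    exact (hfs a).2 _ hcon (lt_of_le_of_lt hab (hfs b).1)
  · intro M
    refine ⟨N (2 * M), ?_⟩
    simp only [hfN]
    omega
  · intro T hT hTc hTg
    obtain ⟨k₁, hk₁⟩ := Filter.eventually_atTop.1 hTg
    refine cp_sparse hQ hN hT hTc (exists_gap hlt (k₁ := k₁) fun k hk => ?_)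
    have := hk₁ (N k) (le_trans hk (hmono.le_apply))
    simp only [hfN] at this
    exact this

end Vale.Agent.P027.B
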