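import Vale.Agent.P027.B.Tools

set_option linter.all false

/-! Polynomials with integer coefficients as lists, their zeros in rings of rational numbers. -/

namespace Vale.Agent.P027.B

/-- polynomials with integer coefficients in countably many variables: lists of terms, a term is a
coefficient and the list of the indices of its variables -/
abbrev Poly : Type := List (ℤ × List ℕ)

/-- the value of a polynomial -/
def ev (y : ℕ → ℚ) (F : Poly) : ℚ := (F.map fun t => (t.1 : ℚ) * (t.2.map y).prod).sum

/-- the polynomial has a zero with coordinates in `R` -/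
def HZ (R : Set ℚ) (F : Poly) : Prop := ∃ y : ℕ → ℚ, (∀ i, y i ∈ R) ∧ ev y F = 0

/-- the rational numbers whose denominators are not divisible by elements of `T` -/
def RT (T : Set ℕ) : Set ℚ := {r | ∀ q ∈ T, ¬ q ∣ r.den}

/-- the variables that occur -/
def vars (F : Poly) : List ℕ := F.flatMap fun t => t.2

/-- renaming of variables -/
def ren (f : ℕ → ℕ) (F : Poly) : Poly := F.map fun t => (t.1, t.2.map f)

/-- products -/
def mulP (F G : Poly) : Poly := F.flatMap fun t => G.map fun u => (t.1 * u.1, t.2 ++ u.2)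

lemma ev_nil (y : ℕ → ℚ) : ev y [] = 0 := rfl

lemma ev_cons (y : ℕ → ℚ) (t : ℤ × List ℕ) (F : Poly) :
    ev y (t :: F) = (t.1 : ℚ) * (t.2.map y).prod + ev y F := by
  simp [ev]

lemma ev_append (y : ℕ → ℚ) (F G : Poly) : ev y (F ++ G) = ev y F + ev y G := by
  simp [ev]

lemma ev_flatMap {α : Type} (y : ℕ → ℚ) (L : List α) (f : α → Poly) :
    ev y (L.flatMap f) = (L.map fun a => ev y (f a)).sum := by
  induction L with
  | nil => simp [ev_nil]
  | cons a L ih => rw [List.flatMap_cons, ev_append, ih, List.map_cons, List.sum_cons]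

lemma ev_ren (y : ℕ → ℚ) (f : ℕ → ℕ) (F : Poly) : ev y (ren f F) = ev (fun i => y (f i)) F := by
  unfold ev ren
  rw [List.map_map]
  congr 1
  apply List.map_congr_left
  intro t _
  simp [Function.comp_def]

lemma ev_mulP (y : ℕ → ℚ) (F G : Poly) : ev y (mulP F G) = ev y F * ev y G := by
  unfold mulP
  rw [ev_flatMap]
  induction F with
  | nil => simp [ev_nil]
  | cons t F ih =>
    rw [List.map_cons, List.sum_cons, ih, ev_cons, add_mul]
    congr 1
    clear ih
    induction G with
    | nil => simp [ev_nil]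
    | cons u G ih2 =>
      rw [List.map_cons, ev_cons, ih2, ev_cons]
      simp only [List.map_append, List.prod_append, Int.cast_mul]
      ring

lemma ev_congr {y y' : ℕ → ℚ} {F : Poly} (h : ∀ i ∈ vars F, y i = y' i) : ev y F = ev y' F := by
  unfold ev
  congr 1
  apply List.map_congr_left
  intro t ht
  congr 2
  apply List.map_congr_left
  intro i hi
  exact h i (List.mem_flatMap.2 ⟨t, ht, hi⟩)

lemma RT_anti {T T' : Set ℕ} (h : T ⊆ T') : RT T' ⊆ RT T := fun r hr q hq => hr q (h hq)

lemma HZ_mono {R R' : Set ℚ} (h : R ⊆ R') {F : Poly} : HZ R F → HZ R' F := by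
  rintro ⟨y, hy, hF⟩
  exact ⟨y, fun i => h (hy i), hF⟩

lemma int_mem_RT {T : Set ℕ} (hT : ∀ q ∈ T, q.Prime) (z : ℤ) : (z : ℚ) ∈ RT T := by
  intro q hq h
  rw [Rat.den_intCast] at h
  exact (hT q hq).one_lt.ne' (Nat.dvd_one.1 h)

/-! ### Homogenisation -/

/-- the sum of the lengths -/
def len (F : Poly) : ℕ := (F.map fun t => t.2.length).foldr (· + ·) 0

lemma le_len {F : Poly} {t : ℤ × List ℕ} (ht : t ∈ F) : t.2.length ≤ len F := by
  induction F with
  | nil => simp at ht
  | cons u F ih =>
    unfold len at ih ⊢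
    rw [List.map_cons, List.foldr_cons]
    rcases List.mem_cons.1 ht with h | h
    · rw [h]
      omega
    · have := ih h
      omega

/-- the homogeneous form of degree `d`, the new variable is `v` -/
def hom (v d : ℕ) (F : Poly) : Poly :=
  F.map fun t => (t.1, t.2 ++ (List.range (d - t.2.length)).map fun _ => v)

lemma prod_const {b : ℚ} (n : ℕ) : ((List.range n).map fun _ => b).prod = b ^ n := by
  rw [List.map_const', List.prod_replicate, List.length_range]

lemma ev_hom {y : ℕ → ℚ} {v d : ℕ} {F : Poly} (hd : ∀ t ∈ F, t.2.length ≤ d) (hv : y v ≠ 0) :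
    ev y (hom v d F) = y v ^ d * ev (fun i => y i / y v) F := by
  unfold ev hom
  rw [List.map_map, ← List.sum_map_mul_left]
  congr 1
  apply List.map_congr_left
  intro t ht
  have h1 := hd t ht
  have h2 : ∀ l : List ℕ, (l.map fun i => y i / y v).prod * y v ^ l.length = (l.map y).prod := by
    intro l
    induction l with
    | nil => simp
    | cons a l ih =>
      simp only [List.map_cons, List.prod_cons, List.length_cons, pow_succ]
      rw [← ih]
      field_simp
  simp only [Function.comp_apply, List.map_append, List.prod_append, List.map_map]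
  have h3 : ((List.range (d - t.2.length)).map (y ∘ fun _ => v)).prod = y v ^ (d - t.2.length) :=
    prod_const _
  rw [h3, ← h2 t.2]
  have h4 : y v ^ d = y v ^ t.2.length * y v ^ (d - t.2.length) := by
    rw [← pow_add, Nat.add_sub_cancel' h1]
  rw [h4]
  ring

/-! ### Common denominators -/

lemma exists_common (F : Poly) (y : ℕ → ℚ) : ∃ (B : ℕ) (a : ℕ → ℤ), B ≠ 0 ∧
    (∀ i ∈ vars F, y i = a i / B) ∧ ∀ q : ℕ, q.Prime → q ∣ B → ∃ i ∈ vars F, q ∣ (y i).den := by
  have key : ∀ L : List ℕ, ∃ (B : ℕ), B ≠ 0 ∧ (∀ i ∈ L, (y i).den ∣ B) ∧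
      ∀ q : ℕ, q.Prime → q ∣ B → ∃ i ∈ L, q ∣ (y i).den := by
    intro L
    induction L with
    | nil => exact ⟨1, one_ne_zero, by simp, fun q hq h => absurd (Nat.dvd_one.1 h) hq.one_lt.ne'⟩
    | cons i L ih =>
      obtain ⟨B, h0, h1, h2⟩ := ih
      refine ⟨(y i).den * B, mul_ne_zero (y i).den_ne_zero h0, ?_, ?_⟩
      · intro j hj
        rcases List.mem_cons.1 hj with rfl | hj
        · exact dvd_mul_right _ _
        · exact (h1 j hj).mul_left _
      · intro q hq hd
        rcases (hq.dvd_mul).1 hd with h | h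
        · exact ⟨i, List.mem_cons_self, h⟩
        · obtain ⟨j, hj, hj'⟩ := h2 q hq h
          exact ⟨j, List.mem_cons_of_mem _ hj, hj'⟩
  obtain ⟨B, h0, h1, h2⟩ := key (vars F)
  have hB : (B : ℚ) ≠ 0 := by exact_mod_cast h0
  refine ⟨B, fun i => (y i).num * ((B / (y i).den : ℕ) : ℤ), h0, fun i hi => ?_, h2⟩
  obtain ⟨k, hk⟩ := h1 i hi
  have hd : ((y i).den : ℚ) ≠ 0 := by exact_mod_cast (y i).den_ne_zero
  have h3 : B / (y i).den = k := by
    rw [hk]
    exact Nat.mul_div_cancel_left _ (y i).den_pos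
  simp only [h3]
  have h4 : (B : ℚ) = (y i).den * k := by exact_mod_cast hk
  have hk0 : (k : ℚ) ≠ 0 := by
    intro h
    rw [h, mul_zero] at h4
    exact hB h4
  push_cast
  rw [h4, eq_div_iff (mul_ne_zero hd hk0), ← mul_assoc, Rat.mul_den_eq_num]

/-- the value of the homogeneous form at integers -/
def evI (F : Poly) (B : ℕ) (l : List ℤ) : ℤ :=
  F.foldr (fun t r => t.1 * t.2.foldr (fun v s => l.getD v 0 * s) 1 *
    (List.range (len F - t.2.length)).foldr (fun _ s => (B : ℤ) * s) 1 + r) 0

lemma evI_eq (F : Poly) {B : ℕ} (hB : B ≠ 0) (l : List ℤ) :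
    ((evI F B l : ℤ) : ℚ) = (B : ℚ) ^ len F * ev (fun i => (l.getD i 0 : ℚ) / B) F := by
  have hBq : (B : ℚ) ≠ 0 := by exact_mod_cast hB
  have key : ∀ (G : Poly) (d : ℕ), (∀ t ∈ G, t.2.length ≤ d) →
      ((G.foldr (fun t r => t.1 * t.2.foldr (fun v s => l.getD v 0 * s) 1 *
    (List.range (d - t.2.length)).foldr (fun _ s => (B : ℤ) * s) 1 + r) 0 : ℤ) : ℚ) =
    (B : ℚ) ^ d * ev (fun i => (l.getD i 0 : ℚ) / B) G := by
    intro G d hG
    induction G with
    | nil => simp [ev_nil]
    | cons t G ih =>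
      rw [List.foldr_cons, ev_cons, mul_add, ← ih (fun u hu => hG u (List.mem_cons_of_mem _ hu))]
      push_cast
      congr 1
      have h1 := hG t List.mem_cons_self
      have h2 : ∀ m : List ℕ, ((m.foldr (fun v s => l.getD v 0 * s) 1 : ℤ) : ℚ) =
          (m.map fun i => (l.getD i 0 : ℚ) / B).prod * (B : ℚ) ^ m.length := by
        intro m
        induction m with
        | nil => simp
        | cons a m ih2 =>
          simp only [List.foldr_cons, List.map_cons, List.prod_cons, List.length_cons, pow_succ]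
          push_cast
          rw [ih2]
          field_simp
      have h3 : ∀ n : List ℕ, ((n.foldr (fun _ s => (B : ℤ) * s) 1 : ℤ) : ℚ) = (B : ℚ) ^ n.length := by
        intro n
        induction n with
        | nil => simp
        | cons a n ih2 =>
          rw [List.foldr_cons, List.length_cons, pow_succ]
          push_cast
          rw [ih2]
          ring
      rw [h2, h3, List.length_range]
      have h4 : (B : ℚ) ^ d = (B : ℚ) ^ t.2.length * (B : ℚ) ^ (d - t.2.length) := by
        rw [← pow_add, Nat.add_sub_cancel' h1]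
      rw [h4]
      ring
  exact key F (len F) (fun t ht => le_len ht)

/-- zeros in terms of integers -/
theorem HZ_iff {T : Set ℕ} (hT : ∀ q ∈ T, q.Prime) (F : Poly) : HZ (RT T) F ↔
    ∃ (B : ℕ) (l : List ℤ), B ≠ 0 ∧ (∀ q ∈ T, ¬ q ∣ B) ∧ evI F B l = 0 := by
  constructor
  · rintro ⟨y, hy, hF⟩
    obtain ⟨B, a, hB, ha, hq⟩ := exists_common F y
    obtain ⟨N, hN⟩ : ∃ N, ∀ i ∈ vars F, i < N := by
      refine ⟨(vars F).sum + 1, fun i hi => ?_⟩
      have := List.single_le_sum (l := vars F) (fun x _ => Nat.zero_le x) i hi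
      omega
    refine ⟨B, (List.range N).map a, hB, fun q hqT hd => ?_, ?_⟩
    · obtain ⟨i, -, hi⟩ := hq q (hT q hqT) hd
      exact hy i q hqT hi
    · have h1 := evI_eq F hB ((List.range N).map a)
      have h2 : ev (fun i => (((List.range N).map a).getD i 0 : ℚ) / B) F = ev y F := by
        apply ev_congr
        intro i hi
        rw [ha i hi]
        congr 2
        rw [List.getD_eq_getElem?_getD, List.getElem?_map, List.getElem?_range (hN i hi)]
        rfl
      rw [h2, hF, mul_zero] at h1
      exact_mod_cast h1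
  · rintro ⟨B, l, hB, hq, h⟩
    have hBq : (B : ℚ) ≠ 0 := by exact_mod_cast hB
    refine ⟨fun i => (l.getD i 0 : ℚ) / B, fun i q hqT hd => hq q hqT ?_, ?_⟩
    · refine hd.trans ?_
      have h1 := Rat.den_dvd (l.getD i 0) (B : ℤ)
      rw [Rat.divInt_eq_div] at h1
      exact_mod_cast h1
    · have h1 := evI_eq F hB l
      rw [h, Int.cast_zero] at h1
      rcases mul_eq_zero.1 h1.symm with h2 | h2
      · exact absurd h2 (pow_ne_zero _ hBq)
      · exact h2

end Vale.Agent.P027.B
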