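import Mathlib

set_option linter.all false

/-! Closure properties of computable predicates, and primitive recursive operations on integers. -/

namespace Vale.Agent.P027.B

open Computable

section pred

variable {α β : Type} [Primcodable α] [Primcodable β]

theorem cp_comp {p : β → Prop} (hp : ComputablePred p) {f : α → β} (hf : Computable f) :
    ComputablePred (fun a => p (f a)) := by
  obtain ⟨g, hg, rfl⟩ := ComputablePred.computable_iff.1 hp
  exact ComputablePred.computable_iff.2 ⟨fun a => g (f a), hg.comp hf, rfl⟩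

theorem cp_and {p q : α → Prop} (hp : ComputablePred p) (hq : ComputablePred q) :
    ComputablePred (fun a => p a ∧ q a) := by
  obtain ⟨f, hf, rfl⟩ := ComputablePred.computable_iff.1 hp
  obtain ⟨g, hg, rfl⟩ := ComputablePred.computable_iff.1 hq
  refine ComputablePred.computable_iff.2 ⟨fun a => f a && g a,
    (Primrec.and.to_comp).comp hf hg, ?_⟩
  funext a
  simp

theorem cp_or {p q : α → Prop} (hp : ComputablePred p) (hq : ComputablePred q) :
    ComputablePred (fun a => p a ∨ q a) := by
  obtain ⟨f, hf, rfl⟩ := ComputablePred.computable_iff.1 hp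
  obtain ⟨g, hg, rfl⟩ := ComputablePred.computable_iff.1 hq
  refine ComputablePred.computable_iff.2 ⟨fun a => f a || g a,
    (Primrec.or.to_comp).comp hf hg, ?_⟩
  funext a
  simp

theorem cp_imp {p q : α → Prop} (hp : ComputablePred p) (hq : ComputablePred q) :
    ComputablePred (fun a => p a → q a) :=
  (cp_or hp.not hq).of_eq fun a => imp_iff_not_or.symm

/-- bounded universal quantifiers -/
theorem cp_all {p : α → ℕ → Prop} (hp : ComputablePred (fun a : α × ℕ => p a.1 a.2)) {f : α → ℕ}
    (hf : Computable f) : ComputablePred (fun a => ∀ n < f a, p a n) := by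
  obtain ⟨g, hg, hgp⟩ := ComputablePred.computable_iff.1 hp
  have hg' : ∀ a n, (p a n ↔ g (a, n) = true) := fun a n => by
    have := congrFun hgp (a, n)
    simp only at this
    rw [this]
  refine ComputablePred.computable_iff.2
    ⟨fun a => Nat.rec (motive := fun _ => Bool) true (fun n r => r && g (a, n)) (f a), ?_, ?_⟩
  · have h1 : Computable₂ (fun (a : α) (x : ℕ × Bool) => x.2 && g (a, x.1)) :=
      Computable₂.mk ((Primrec.and.to_comp).comp (Computable.snd.comp Computable.snd)
        (hg.comp (Computable.pair Computable.fst (Computable.fst.comp Computable.snd))))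
    exact Computable.nat_rec hf (Computable.const true) h1
  · funext a
    have key : ∀ k, ((Nat.rec (motive := fun _ => Bool) true (fun n r => r && g (a, n)) k) = true ↔
        ∀ n < k, p a n) := by
      intro k
      induction k with
      | zero => simp
      | succ k ih =>
        simp only [Bool.and_eq_true]
        rw [ih, ← hg']
        constructor
        · rintro ⟨h1, h2⟩ n hn
          rcases Nat.lt_succ_iff_lt_or_eq.1 hn with h | rfl
          · exact h1 n h
          · exact h2
        · intro h
          exact ⟨fun n hn => h n (by omega), h k (by omega)⟩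
    exact propext (key (f a)).symm

theorem cp_ex {p : α → ℕ → Prop} (hp : ComputablePred (fun a : α × ℕ => p a.1 a.2)) {f : α → ℕ}
    (hf : Computable f) : ComputablePred (fun a => ∃ n < f a, p a n) := by
  refine (cp_all (p := fun a n => ¬ p a n) hp.not hf).not.of_eq fun a => ?_
  push Not
  rfl

/-- unbounded existential quantifiers over natural numbers -/
theorem re_ex_nat {p : α → ℕ → Prop} (hp : ComputablePred (fun a : α × ℕ => p a.1 a.2)) :
    REPred (fun a => ∃ n, p a n) := by
  obtain ⟨g, hg, hgp⟩ := ComputablePred.computable_iff.1 hp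
  have hg' : ∀ a n, (p a n ↔ g (a, n) = true) := fun a n => by
    have := congrFun hgp (a, n)
    simp only at this
    rw [this]
  have h1 : Partrec (fun a => Nat.rfind fun n => (Part.some (g (a, n)) : Part Bool)) :=
    Partrec.rfind (hg.partrec)
  refine h1.dom_re.of_eq fun a => ?_
  refine (Nat.rfind_dom (p := fun n => (Part.some (g (a, n)) : Part Bool))).trans ?_
  constructor
  · rintro ⟨n, h, -⟩
    exact ⟨n, (hg' a n).2 (by simpa using h)⟩
  · rintro ⟨n, h⟩
    exact ⟨n, by simpa using ((hg' a n).1 h), fun _ => trivial⟩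

theorem re_ex [Inhabited β] {p : α → β → Prop}
    (hp : ComputablePred (fun a : α × β => p a.1 a.2)) : REPred (fun a => ∃ b, p a b) := by
  have hd : Computable (fun n : ℕ => ((Encodable.decode n : Option β)).getD default) :=
    (Primrec.option_getD.comp Primrec.decode (Primrec.const default)).to_comp
  have h1 : ComputablePred (fun a : α × ℕ => p a.1 ((Encodable.decode a.2 : Option β).getD default)) :=
    cp_comp (f := fun a : α × ℕ => (a.1, (Encodable.decode a.2 : Option β).getD default)) hp
      (Computable.pair Computable.fst (hd.comp Computable.snd))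
  refine (re_ex_nat (p := fun (a : α) (n : ℕ) => p a ((Encodable.decode n : Option β).getD default)) h1).of_eq
    fun a => ?_
  constructor
  · rintro ⟨n, h⟩
    exact ⟨_, h⟩
  · rintro ⟨b, h⟩
    refine ⟨Encodable.encode b, ?_⟩
    rw [Encodable.encodek]
    exact h

end pred

/-! ### Integers -/

theorem primrec_sub : Primrec₂ (fun a b : ℕ => (a : ℤ) - (b : ℤ)) := by
  have h : Primrec (fun p : ℕ × ℕ => if p.2 ≤ p.1 then 2 * (p.1 - p.2) else
      2 * (p.2 - p.1 - 1) + 1) := by
    refine Primrec.ite (Primrec.nat_le.comp Primrec.snd Primrec.fst) ?_ ?_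
    · exact Primrec.nat_mul.comp (Primrec.const 2) (Primrec.nat_sub.comp Primrec.fst Primrec.snd)
    · exact Primrec.succ.comp (Primrec.nat_mul.comp (Primrec.const 2)
        (Primrec.nat_sub.comp (Primrec.nat_sub.comp Primrec.snd Primrec.fst) (Primrec.const 1)))
  refine Primrec.encode_iff.1 (h.of_eq ?_)
  rintro ⟨a, b⟩
  simp only
  split_ifs with hab
  · obtain ⟨c, rfl⟩ := Nat.exists_eq_add_of_le hab
    have e1 : ((b + c : ℕ) : ℤ) - (b : ℤ) = ((c : ℕ) : ℤ) := by push_cast; ring
    rw [e1, Nat.add_sub_cancel_left]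
    rfl
  · obtain ⟨c, rfl⟩ : ∃ c, b = a + c + 1 := ⟨b - a - 1, by omega⟩
    have e1 : ((a : ℕ) : ℤ) - ((a + c + 1 : ℕ) : ℤ) = Int.negSucc c := by
      rw [Int.negSucc_eq]; push_cast; ring
    have e2 : a + c + 1 - a - 1 = c := by omega
    rw [e1, e2]
    rfl

theorem primrec_toNat : Primrec (fun z : ℤ => z.toNat) := by
  have h3 : Primrec (fun n : ℕ => if n % 2 = 0 then n / 2 else 0) := by
    refine Primrec.ite (Primrec.eq.comp ?_ (Primrec.const 0)) ?_ (Primrec.const 0)
    · exact Primrec.nat_mod.comp Primrec.id (Primrec.const 2)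
    · exact Primrec.nat_div.comp Primrec.id (Primrec.const 2)
  refine (h3.comp (Primrec.encode (α := ℤ))).of_eq (fun z => ?_)
  rcases z with n | n
  · have e : Encodable.encode (Int.ofNat n) = 2 * n := rfl
    rw [e, if_pos (by omega)]
    simp
  · have e : Encodable.encode (Int.negSucc n) = 2 * n + 1 := rfl
    rw [e, if_neg (by omega)]
    rfl

theorem primrec_negToNat : Primrec (fun z : ℤ => (-z).toNat) := by
  have h3 : Primrec (fun n : ℕ => if n % 2 = 0 then 0 else n / 2 + 1) := by
    refine Primrec.ite (Primrec.eq.comp ?_ (Primrec.const 0)) (Primrec.const 0) ?_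
    · exact Primrec.nat_mod.comp Primrec.id (Primrec.const 2)
    · exact Primrec.succ.comp (Primrec.nat_div.comp Primrec.id (Primrec.const 2))
  refine (h3.comp (Primrec.encode (α := ℤ))).of_eq (fun z => ?_)
  rcases z with n | n
  · have e : Encodable.encode (Int.ofNat n) = 2 * n := rfl
    rw [e, if_pos (by omega)]
    simp
  · have e : Encodable.encode (Int.negSucc n) = 2 * n + 1 := rfl
    rw [e, if_neg (by omega)]
    rw [Int.neg_negSucc]
    simp
    omega

theorem toNat_sub (z : ℤ) : ((z.toNat : ℕ) : ℤ) - (((-z).toNat : ℕ) : ℤ) = z := by omega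

theorem primrec_int_add : Primrec₂ (fun a b : ℤ => a + b) := by
  have h : Primrec (fun p : ℤ × ℤ => ((p.1.toNat + p.2.toNat : ℕ) : ℤ) -
      (((-p.1).toNat + (-p.2).toNat : ℕ) : ℤ)) :=
    primrec_sub.comp (Primrec.nat_add.comp (primrec_toNat.comp Primrec.fst)
      (primrec_toNat.comp Primrec.snd)) (Primrec.nat_add.comp (primrec_negToNat.comp Primrec.fst)
      (primrec_negToNat.comp Primrec.snd))
  refine h.of_eq fun p => ?_
  show _ = p.1 + p.2
  omega

theorem primrec_int_neg : Primrec (fun a : ℤ => -a) := by
  have h : Primrec (fun p : ℤ => (((-p).toNat : ℕ) : ℤ) - ((p.toNat : ℕ) : ℤ)) :=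
    primrec_sub.comp primrec_negToNat primrec_toNat
  exact h.of_eq fun p => by omega

theorem primrec_int_cast : Primrec (fun n : ℕ => (n : ℤ)) :=
  (primrec_sub.comp Primrec.id (Primrec.const 0)).of_eq fun n => by simp

theorem primrec_int_mul : Primrec₂ (fun a b : ℤ => a * b) := by
  have h : Primrec (fun p : ℤ × ℤ => ((p.1.toNat * p.2.toNat + (-p.1).toNat * (-p.2).toNat : ℕ) : ℤ) -
      ((p.1.toNat * (-p.2).toNat + (-p.1).toNat * p.2.toNat : ℕ) : ℤ)) := by
    have a1 := primrec_toNat.comp (Primrec.fst (α := ℤ) (β := ℤ))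
    have a2 := primrec_toNat.comp (Primrec.snd (α := ℤ) (β := ℤ))
    have b1 := primrec_negToNat.comp (Primrec.fst (α := ℤ) (β := ℤ))
    have b2 := primrec_negToNat.comp (Primrec.snd (α := ℤ) (β := ℤ))
    exact primrec_sub.comp (Primrec.nat_add.comp (Primrec.nat_mul.comp a1 a2)
      (Primrec.nat_mul.comp b1 b2)) (Primrec.nat_add.comp (Primrec.nat_mul.comp a1 b2)
      (Primrec.nat_mul.comp b1 a2))
  refine h.of_eq fun p => ?_
  have e1 := toNat_sub p.1
  have e2 := toNat_sub p.2
  generalize p.1.toNat = x at *
  generalize (-p.1).toNat = y at *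
  generalize p.2.toNat = z at *
  generalize (-p.2).toNat = w at *
  show _ = p.1 * p.2
  rw [← e1, ← e2]
  push_cast
  ring

end Vale.Agent.P027.B
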