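import Vale.Agent.P027.B.Poly
import Vale.Agent.P027.R2.H250.IntP

set_option linter.all false

/-! The rational numbers integral at finitely many primes: a uniform translation. -/

namespace Vale.Agent.P027.B

open Vale.Agent.P027

/-! ### The local condition -/

/-- integrality at an odd prime -/
theorem int_iff_of' {p : ℕ} (hp : p.Prime) {I : ℚ → Prop} (h1 : ∀ r : ℚ, I r → 0 ≤ padicValRat p r)
    (h2 : ∀ R : ℤ, I R) (x : ℚ) : 0 ≤ padicValRat p x ↔
      ∃ r s t w : ℚ, x * s = r ∧ p * w = s * t - 1 ∧ I r ∧ I s ∧ I t ∧ I w := by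
  have hF := Fact.mk hp
  have hpq : (p : ℚ) ≠ 0 := by exact_mod_cast hp.ne_zero
  constructor
  · intro hx
    have hden : ¬ p ∣ x.den := by
      intro hd
      have h3 : padicNorm p x ≤ 1 := pn_le_one_iff.2 hx
      have h4 : ¬ (p : ℤ) ∣ x.num := by
        intro hd'
        have h5 : p ∣ Nat.gcd x.num.natAbs x.den := Nat.dvd_gcd (Int.natCast_dvd.1 hd') hd
        rw [x.reduced] at h5
        exact hp.one_lt.ne' (Nat.dvd_one.1 h5)
      have h6 : padicNorm p x = padicNorm p x.num / padicNorm p x.den := by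
        rw [← padicNorm.div]
        congr 1
        exact (Rat.num_div_den x).symm
      have h7 : padicNorm p (x.num : ℚ) = 1 := (padicNorm.int_eq_one_iff _).2 h4
      have h8 : padicNorm p (x.den : ℚ) < 1 := (padicNorm.nat_lt_one_iff _).2 hd
      have h9 : 0 < padicNorm p (x.den : ℚ) := pn_pos (by exact_mod_cast x.den_ne_zero)
      rw [h6, h7, div_le_one h9] at h3
      linarith only [h3, h8]
    have hcop : IsCoprime (x.den : ℤ) (p : ℤ) := by
      rw [Nat.isCoprime_iff_coprime, Nat.coprime_comm, Nat.Prime.coprime_iff_not_dvd hp]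
      exact hden
    obtain ⟨u, v, huv⟩ := hcop
    refine ⟨x.num, (x.den : ℤ), u, ((-v : ℤ) : ℚ), ?_, ?_, h2 _, h2 _, h2 _, h2 _⟩
    · rw [Int.cast_natCast]
      exact Rat.mul_den_eq_num x
    · have h3 : ((u * x.den + v * p : ℤ) : ℚ) = 1 := by rw [huv]; norm_num
      push_cast at h3 ⊢
      linear_combination -h3
  · rintro ⟨r, s, t, w, hxs, hst, hr, hs, ht, hw⟩
    have g1 := pn_le_one_iff.2 (h1 _ hr)
    have g2 := pn_le_one_iff.2 (h1 _ hs)
    have g3 := pn_le_one_iff.2 (h1 _ ht)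
    have g4 := pn_le_one_iff.2 (h1 _ hw)
    have g5 : padicNorm p (s * t) = 1 := by
      have e : s * t = p * w + 1 := by linarith only [hst]
      have h3 : padicNorm p ((p : ℚ) * w) < 1 := by
        rw [padicNorm.mul]
        have h4 : padicNorm p (p : ℚ) < 1 := (padicNorm.nat_lt_one_iff _).2 (dvd_refl _)
        have h5 : 0 ≤ padicNorm p (p : ℚ) := padicNorm.nonneg _
        have h6 : 0 ≤ padicNorm p w := padicNorm.nonneg _
        nlinarith only [h4, h5, h6, g4]
      rw [e, pn_add_right (by rw [padicNorm.one]; exact h3), padicNorm.one]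
    rw [padicNorm.mul] at g5
    have g6 : padicNorm p s = 1 := by
      have h5 : 0 ≤ padicNorm p s := padicNorm.nonneg _
      have h6 : 0 ≤ padicNorm p t := padicNorm.nonneg _
      nlinarith only [h5, h6, g2, g3, g5]
    rw [← pn_le_one_iff]
    rw [← hxs, padicNorm.mul, g6, mul_one] at g1
    exact g1

/-! ### Gadgets -/

/-- the coefficients of the gadgets -/
def par (q D : ℕ) : List ℤ :=
  [1, -1, D, (q * (q + 4) : ℕ), -((4 * D * (q * (q + 4)) : ℕ) : ℤ), q, 7, 2]

/-- a gadget: the terms are the index of the coefficient, and the indices of the variables -/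
abbrev Tmp : Type := List (ℕ × List ℕ)

/-- the value -/
def evT (c : List ℤ) (z : ℕ → ℚ) (t : Tmp) : ℚ :=
  (t.map fun u => ((c.getD u.1 0 : ℤ) : ℚ) * (u.2.map z).prod).sum

/-- the condition `ID` for the variable `j` -/
def gadID (j : ℕ) : List Tmp :=
  [[(0, [10 * j, 10 * j + 1]), (1, [])],
   [(0, [10 * j]), (1, [10 * j + 2, 10 * j + 2]), (2, [10 * j + 3, 10 * j + 3])],
   [(2, [10 * j]), (1, [10 * j + 4, 10 * j + 4]), (3, [10 * j + 5, 10 * j + 5])],
   [(0, [10 * j + 6, 10 * j + 6]), (1, [10 * j, 10 * j + 7, 10 * j + 7]), (1, []), (4, [j, j])]]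

/-- the gadget for an odd prime -/
def gadO : List Tmp :=
  [[(0, [0, 2]), (1, [1])], [(5, [4]), (1, [2, 3]), (0, [])]] ++ gadID 1 ++ gadID 2 ++ gadID 3 ++
    gadID 4

/-- the gadget for the prime two -/
def gadE : List Tmp := [[(6, [0, 0]), (7, []), (1, [1, 1]), (1, [2, 2]), (1, [3, 3])]]

/-- the gadgets -/
def gads (q : ℕ) : List Tmp := if q = 2 then gadE else gadO

/-- the parameters of a gadget -/
def Valid (q D : ℕ) : Prop :=
  q.Prime ∧ (q ≠ 2 → q * (q + 4) < D ∧ D.Prime ∧ D % 4 = 3 ∧ ∀ x < q, (x * x) % q ≠ D % q)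

lemma exists_valid {q : ℕ} (hq : q.Prime) : ∃ D, Valid q D := by
  by_cases h2 : q = 2
  · exact ⟨0, hq, fun h => absurd h2 h⟩
  · obtain ⟨D, h1, h3, h4, h5⟩ := T2.exists_D hq h2 (q * (q + 4))
    refine ⟨D, hq, fun _ => ⟨h1, h3, h4, fun x hx hxx => h5 ⟨(x : ZMod q), ?_⟩⟩⟩
    have : ((x * x : ℕ) : ZMod q) = ((D : ℕ) : ZMod q) := (ZMod.natCast_eq_natCast_iff _ _ _).2 hxx
    rw [← this]
    push_cast
    rfl

lemma gadID_iff (q D j : ℕ) (z : ℕ → ℚ) : (∀ t ∈ gadID j, evT (par q D) z t = 0) ↔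
    (z (10 * j) * z (10 * j + 1) = 1 ∧ z (10 * j) = z (10 * j + 2) ^ 2 - D * z (10 * j + 3) ^ 2 ∧
    D * z (10 * j) = z (10 * j + 4) ^ 2 - (q * (q + 4) : ℕ) * z (10 * j + 5) ^ 2 ∧
    z (10 * j + 6) ^ 2 - z (10 * j) * z (10 * j + 7) ^ 2 =
      1 + 4 * D * (q * (q + 4) : ℕ) * z j ^ 2) := by
  unfold gadID
  simp only [List.forall_mem_cons, List.not_mem_nil, false_implies, implies_true, and_true]
  simp only [evT, par, List.map_cons, List.map_nil, List.sum_cons, List.sum_nil, List.prod_cons,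
    List.prod_nil, List.getD_cons_zero, List.getD_cons_succ]
  push_cast
  constructor
  · rintro ⟨h1, h2, h3, h4⟩
    refine ⟨by linear_combination h1, by linear_combination h2, by linear_combination h3,
      by linear_combination h4⟩
  · rintro ⟨h1, h2, h3, h4⟩
    refine ⟨by linear_combination h1, by linear_combination h2, by linear_combination h3,
      by linear_combination h4⟩

lemma id_iff (q D : ℕ) (r : ℚ) : T2.ID D (q * (q + 4)) r ↔
    ∃ a a' e f u v X Z : ℚ, a * a' = 1 ∧ a = e ^ 2 - D * f ^ 2 ∧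
      D * a = u ^ 2 - (q * (q + 4) : ℕ) * v ^ 2 ∧
      X ^ 2 - a * Z ^ 2 = 1 + 4 * D * (q * (q + 4) : ℕ) * r ^ 2 := by
  constructor
  · rintro ⟨a, ⟨ha, ⟨e, f, h1⟩, u, v, h2⟩, X, Z, h3⟩
    exact ⟨a, a⁻¹, e, f, u, v, X, Z, mul_inv_cancel₀ ha, h1, h2, h3⟩
  · rintro ⟨a, a', e, f, u, v, X, Z, h0, h1, h2, h3⟩
    exact ⟨a, ⟨left_ne_zero_of_mul_eq_one h0, ⟨e, f, h1⟩, u, v, h2⟩, X, Z, h3⟩

/-- the gadget defines integrality -/
theorem gad_iff {q D : ℕ} (hv : Valid q D) (x : ℚ) :
    (∃ z : ℕ → ℚ, z 0 = x ∧ ∀ t ∈ gads q, evT (par q D) z t = 0) ↔ ¬ q ∣ x.den := by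
  obtain ⟨hq, hD⟩ := hv
  have hF := Fact.mk hq
  have hden : ¬ q ∣ x.den ↔ 0 ≤ padicValRat q x := by
    constructor
    · intro h
      rw [padicValRat, padicValNat.eq_zero_of_not_dvd h, Nat.cast_zero, sub_zero]
      exact Int.natCast_nonneg _
    · exact odd_den
  rw [hden]
  by_cases h2 : q = 2
  · subst h2
    rw [int2_iff]
    unfold gads
    rw [if_pos rfl]
    unfold gadE
    simp only [List.forall_mem_cons, List.not_mem_nil, false_implies, implies_true, and_true]
    simp only [evT, par, List.map_cons, List.map_nil, List.sum_cons, List.sum_nil, List.prod_cons,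
      List.prod_nil, List.getD_cons_zero, List.getD_cons_succ]
    push_cast
    constructor
    · rintro ⟨z, rfl, h⟩
      exact ⟨z 1, z 2, z 3, by linear_combination h⟩
    · rintro ⟨a, b, c, h⟩
      refine ⟨fun n => if n = 0 then x else if n = 1 then a else if n = 2 then b else c, rfl, ?_⟩
      norm_num
      linear_combination h
  · obtain ⟨hD1, hD2, hD3, hD4⟩ := hD h2
    have hodd := hq.odd_of_ne_two h2
    have hpc : Nat.Coprime q (q + 4) := by
      rw [Nat.coprime_self_add_right, show 4 = 2 ^ 2 by norm_num]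
      exact Nat.Coprime.pow_right 2 (Nat.coprime_two_right.2 hodd)
    have hval : padicValRat q (((q * (q + 4) : ℕ) : ℚ)) = 1 := by
      rw [padicValRat.of_nat]
      have h4 : q + 4 ≠ 0 := by omega
      rw [padicValNat.mul hq.ne_zero h4, padicValNat.self hq.one_lt,
        padicValNat.eq_zero_of_not_dvd ((Nat.Prime.coprime_iff_not_dvd hq).1 hpc)]
      norm_num
    have hpos : 0 < q * (q + 4) := Nat.mul_pos hq.pos (by omega)
    have hns : ¬ IsSquare ((D : ℕ) : ZMod q) := by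
      rintro ⟨c, hc⟩
      apply hD4 c.val c.val_lt
      have : ((c.val * c.val : ℕ) : ZMod q) = ((D : ℕ) : ZMod q) := by
        push_cast
        rw [ZMod.natCast_zmod_val]
        exact hc.symm
      exact (ZMod.natCast_eq_natCast_iff _ _ _).1 this
    have hI1 : ∀ r : ℚ, T2.ID D (q * (q + 4)) r → 0 ≤ padicValRat q r := by
      intro r h
      refine T2.ID.sound (q := q) ?_ h2 hval h
      have h1 : ¬ IsSquare ((D : ℤ) : ZMod q) := by rwa [Int.cast_natCast]
      have := NR_of_int h1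
      exact_mod_cast this
    have hI2 : ∀ R : ℤ, T2.ID D (q * (q + 4)) R := by
      intro R
      refine T2.ID.complete hD2 hD3 ?_ ?_ ?_ R
      · obtain ⟨k, hk⟩ := hodd
        rw [hk]
        have : (2 * k + 1) * (2 * k + 1 + 4) = 4 * (k ^ 2 + 3 * k + 1) + 1 := by ring
        omega
      · rw [Nat.Prime.coprime_iff_not_dvd hD2]
        intro hd
        have := Nat.le_of_dvd hpos hd
        omega
      · intro k hk
        have h5 : ((q * (q + 4) : ℕ) : ℚ) = (k : ℚ) ^ 2 := by exact_mod_cast hk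
        rw [h5, padicValRat.pow] at hval
        omega
    rw [int_iff_of' hq hI1 hI2]
    unfold gads
    rw [if_neg h2]
    unfold gadO
    simp only [List.forall_mem_append, gadID_iff]
    simp only [List.forall_mem_cons, List.not_mem_nil, false_implies, implies_true, and_true]
    have e1 : ∀ z : ℕ → ℚ, evT (par q D) z [(0, [0, 2]), (1, [1])] = z 0 * z 2 - z 1 := by
      intro z
      simp only [evT, par, List.map_cons, List.map_nil, List.sum_cons, List.sum_nil, List.prod_cons,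
        List.prod_nil, List.getD_cons_zero, List.getD_cons_succ]
      push_cast
      ring
    have e2 : ∀ z : ℕ → ℚ, evT (par q D) z [(5, [4]), (1, [2, 3]), (0, [])] =
        q * z 4 - (z 2 * z 3 - 1) := by
      intro z
      simp only [evT, par, List.map_cons, List.map_nil, List.sum_cons, List.sum_nil, List.prod_cons,
        List.prod_nil, List.getD_cons_zero, List.getD_cons_succ]
      push_cast
      ring
    constructor
    · rintro ⟨z, hz, h⟩
      rw [e1, e2] at h
      obtain ⟨⟨⟨⟨⟨h1, h3⟩, k1⟩, k2⟩, k3⟩, k4⟩ := h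
      refine ⟨z 1, z 2, z 3, z 4, by rw [← hz]; linarith only [h1], by linarith only [h3], ?_, ?_,
        ?_, ?_⟩
      · exact (id_iff q D _).2 ⟨_, _, _, _, _, _, _, _, k1⟩
      · exact (id_iff q D _).2 ⟨_, _, _, _, _, _, _, _, k2⟩
      · exact (id_iff q D _).2 ⟨_, _, _, _, _, _, _, _, k3⟩
      · exact (id_iff q D _).2 ⟨_, _, _, _, _, _, _, _, k4⟩
    · rintro ⟨r, s, t, w, h1, h3, k1, k2, k3, k4⟩
      rw [id_iff] at k1 k2 k3 k4
      obtain ⟨a1, b1, c1, d1, f1, g1, i1, j1, k1⟩ := k1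
      obtain ⟨a2, b2, c2, d2, f2, g2, i2, j2, k2⟩ := k2
      obtain ⟨a3, b3, c3, d3, f3, g3, i3, j3, k3⟩ := k3
      obtain ⟨a4, b4, c4, d4, f4, g4, i4, j4, k4⟩ := k4
      obtain ⟨L, hL⟩ : ∃ L : List ℚ, L = [x, r, s, t, w, 0, 0, 0, 0, 0,
        a1, b1, c1, d1, f1, g1, i1, j1, 0, 0, a2, b2, c2, d2, f2, g2, i2, j2, 0, 0,
        a3, b3, c3, d3, f3, g3, i3, j3, 0, 0, a4, b4, c4, d4, f4, g4, i4, j4] := ⟨_, rfl⟩
      refine ⟨fun n => L.getD n 0, ?_, ?_⟩
      · rw [hL]; rfl
      · rw [e1, e2]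
        rw [hL]
        simp only [Nat.reduceMul, Nat.reduceAdd, List.getD_cons_zero, List.getD_cons_succ]
        exact ⟨⟨⟨⟨⟨by linarith only [h1], by linarith only [h3]⟩, k1⟩, k2⟩, k3⟩, k4⟩

end Vale.Agent.P027.B
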