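import Vale.Agent.P027.B.Tr

set_option linter.all false

/-! The translation of polynomials, its computability. -/

namespace Vale.Agent.P027.B

open Vale.Agent.P027

/-- squares -/
def sq (F : Poly) : Poly := mulP F F

lemma ev_sq (y : ℕ → ℚ) (F : Poly) : ev y (sq F) = ev y F ^ 2 := by
  unfold sq
  rw [ev_mulP, _root_.sq]

/-- the names of the variables -/
def nam (i q D k : ℕ) : ℕ := if k = 0 then 2 * i else 2 * Nat.pair i (Nat.pair q (Nat.pair D k)) + 1

/-- instances of gadgets -/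
def inst (t : Tmp) (i q D : ℕ) : Poly :=
  t.map fun u => ((par q D).getD u.1 0, u.2.map fun k => nam i q D k)

lemma ev_inst (y : ℕ → ℚ) (t : Tmp) (i q D : ℕ) :
    ev y (inst t i q D) = evT (par q D) (fun k => y (nam i q D k)) t := by
  unfold ev inst evT
  rw [List.map_map]
  congr 1
  apply List.map_congr_left
  intro u _
  simp [Function.comp_def]

/-- the part of the translation for a variable and a prime -/
def trp (i : ℕ) (p : ℕ × ℕ) : Poly := (gads p.1).flatMap fun t => sq (inst t i p.1 p.2)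

/-- the translation -/
def tr (F : Poly) (l : List (ℕ × ℕ)) : Poly :=
  sq (ren (fun i => 2 * i) F) ++ (vars F).flatMap fun i => l.flatMap (trp i)

lemma sum_sq_nonneg {α : Type} (L : List α) (f : α → ℚ) (h : ∀ a ∈ L, 0 ≤ f a) :
    0 ≤ (L.map f).sum ∧ ((L.map f).sum = 0 ↔ ∀ a ∈ L, f a = 0) := by
  induction L with
  | nil => simp
  | cons a L ih =>
    obtain ⟨h1, h2⟩ := ih (fun b hb => h b (List.mem_cons_of_mem _ hb))
    have h3 := h a List.mem_cons_self
    rw [List.map_cons, List.sum_cons]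
    refine ⟨add_nonneg h3 h1, ?_⟩
    rw [add_eq_zero_iff_of_nonneg h3 h1, h2, List.forall_mem_cons]

lemma ev_trp (y : ℕ → ℚ) (i : ℕ) (p : ℕ × ℕ) : 0 ≤ ev y (trp i p) ∧ (ev y (trp i p) = 0 ↔
    ∀ t ∈ gads p.1, evT (par p.1 p.2) (fun k => y (nam i p.1 p.2 k)) t = 0) := by
  unfold trp
  rw [ev_flatMap]
  obtain ⟨h1, h2⟩ := sum_sq_nonneg (gads p.1) (fun t => ev y (sq (inst t i p.1 p.2)))
    (fun t _ => by rw [ev_sq]; positivity)
  refine ⟨h1, h2.trans ?_⟩
  apply forall₂_congr
  intro t _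
  rw [ev_sq, ev_inst]
  exact pow_eq_zero_iff (by norm_num)

lemma ev_nest (y : ℕ → ℚ) (L : List ℕ) (l : List (ℕ × ℕ)) (t : ℕ → ℕ × ℕ → Poly)
    (h : ∀ i p, 0 ≤ ev y (t i p)) :
    0 ≤ ev y (L.flatMap fun i => l.flatMap (t i)) ∧
      (ev y (L.flatMap fun i => l.flatMap (t i)) = 0 ↔ ∀ i ∈ L, ∀ p ∈ l, ev y (t i p) = 0) := by
  have h1 : ∀ i, 0 ≤ ev y (l.flatMap (t i)) ∧
      (ev y (l.flatMap (t i)) = 0 ↔ ∀ p ∈ l, ev y (t i p) = 0) := by
    intro i
    rw [ev_flatMap]
    exact sum_sq_nonneg l (fun p => ev y (t i p)) (fun p _ => h i p)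
  rw [ev_flatMap]
  obtain ⟨h2, h3⟩ := sum_sq_nonneg L (fun i => ev y (l.flatMap (t i))) (fun i _ => (h1 i).1)
  refine ⟨h2, h3.trans ?_⟩
  apply forall₂_congr
  intro i _
  exact (h1 i).2

lemma ev_tr' (y : ℕ → ℚ) (F : Poly) (l : List (ℕ × ℕ)) : ev y (tr F l) = 0 ↔
    ev (fun i => y (2 * i)) F = 0 ∧ ∀ i ∈ vars F, ∀ p ∈ l, ev y (trp i p) = 0 := by
  obtain ⟨h2, h3⟩ := ev_nest y (vars F) l trp (fun i p => (ev_trp y i p).1)
  have e : ev y (tr F l) = ev (fun i => y (2 * i)) F ^ 2 +
      ev y ((vars F).flatMap fun i => l.flatMap (trp i)) := by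
    unfold tr
    rw [ev_append, ev_sq, ev_ren]
  rw [e]
  generalize ev y ((vars F).flatMap fun i => l.flatMap (trp i)) = A at h2 h3 ⊢
  rw [← h3, add_eq_zero_iff_of_nonneg (sq_nonneg _) h2]
  exact and_congr (pow_eq_zero_iff (by norm_num)) Iff.rfl

lemma ev_tr (y : ℕ → ℚ) (F : Poly) (l : List (ℕ × ℕ)) : ev y (tr F l) = 0 ↔
    ev (fun i => y (2 * i)) F = 0 ∧ ∀ i ∈ vars F, ∀ p ∈ l,
      ∀ t ∈ gads p.1, evT (par p.1 p.2) (fun k => y (nam i p.1 p.2 k)) t = 0 := by
  rw [ev_tr']
  constructor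
  · rintro ⟨h1, h2⟩
    exact ⟨h1, fun i hi p hp => (ev_trp y i p).2.1 (h2 i hi p hp)⟩
  · rintro ⟨h1, h2⟩
    exact ⟨h1, fun i hi p hp => (ev_trp y i p).2.2 (h2 i hi p hp)⟩

/-- the translation is correct -/
theorem tr_iff (F : Poly) {l : List (ℕ × ℕ)} (hl : ∀ p ∈ l, Valid p.1 p.2) :
    HZ Set.univ (tr F l) ↔ HZ (RT {q | ∃ p ∈ l, p.1 = q}) F := by
  classical
  constructor
  · rintro ⟨y, -, hy⟩
    rw [ev_tr] at hy
    obtain ⟨h1, h2⟩ := hy
    refine ⟨fun i => if i ∈ vars F then y (2 * i) else 0, ?_, ?_⟩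
    · rintro i q ⟨p, hp, rfl⟩
      have hq := (hl p hp).1
      by_cases hi : i ∈ vars F
      · simp only [if_pos hi]
        exact (gad_iff (hl p hp) _).1 ⟨fun k => y (nam i p.1 p.2 k), rfl, h2 i hi p hp⟩
      · simp only [if_neg hi]
        intro h
        exact hq.one_lt.ne' (Nat.dvd_one.1 h)
    · rw [← h1]
      apply ev_congr
      intro i hi
      simp only [if_pos hi]
  · rintro ⟨y, hy, hF⟩
    have hz : ∀ (i : ℕ) (p : ℕ × ℕ), ∃ z : ℕ → ℚ, p ∈ l → (z 0 = y i ∧
        ∀ t ∈ gads p.1, evT (par p.1 p.2) z t = 0) := by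
      intro i p
      by_cases hp : p ∈ l
      · obtain ⟨z, hz⟩ := (gad_iff (hl p hp) (y i)).2 (hy i p.1 ⟨p, hp, rfl⟩)
        exact ⟨z, fun _ => hz⟩
      · exact ⟨fun _ => 0, fun h => absurd h hp⟩
    choose z hz using hz
    refine ⟨fun n => if n % 2 = 0 then y (n / 2) else
      z (Nat.unpair (n / 2)).1 ((Nat.unpair (Nat.unpair (n / 2)).2).1,
        (Nat.unpair (Nat.unpair (Nat.unpair (n / 2)).2).2).1)
        (Nat.unpair (Nat.unpair (Nat.unpair (n / 2)).2).2).2, fun i => Set.mem_univ _, ?_⟩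
    rw [ev_tr]
    refine ⟨?_, ?_⟩
    · have e : (fun i => if (2 * i) % 2 = 0 then y (2 * i / 2) else
        z (Nat.unpair (2 * i / 2)).1 ((Nat.unpair (Nat.unpair (2 * i / 2)).2).1,
        (Nat.unpair (Nat.unpair (Nat.unpair (2 * i / 2)).2).2).1)
        (Nat.unpair (Nat.unpair (Nat.unpair (2 * i / 2)).2).2).2) = y := by
        funext i
        rw [if_pos (by omega), Nat.mul_div_cancel_left _ (by norm_num)]
      rw [e]
      exact hF
    · rintro i hi ⟨q, D⟩ hp t ht
      obtain ⟨h0, h1⟩ := hz i (q, D) hp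
      rw [← h1 t ht]
      congr 1
      funext k
      unfold nam
      by_cases hk : k = 0
      · subst hk
        rw [if_pos rfl, if_pos (by omega), Nat.mul_div_cancel_left _ (by norm_num)]
        exact h0.symm
      · rw [if_neg hk, if_neg (by omega)]
        have e : (2 * Nat.pair i (Nat.pair q (Nat.pair D k)) + 1) / 2 =
            Nat.pair i (Nat.pair q (Nat.pair D k)) := by omega
        rw [e]
        simp only [Nat.unpair_pair]

/-! ### Computability -/

open Primrec

theorem primrec_vars : Primrec vars :=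
  Primrec.list_flatMap Primrec.id (Primrec.snd.comp Primrec.snd).to₂

theorem primrec_mulP : Primrec₂ mulP := by
  refine Primrec.list_flatMap (f := fun a : Poly × Poly => a.1)
    (g := fun a t => a.2.map fun u => (t.1 * u.1, t.2 ++ u.2)) Primrec.fst ?_
  refine Primrec.list_map (f := fun a : (Poly × Poly) × (ℤ × List ℕ) => a.1.2)
    (g := fun a u => (a.2.1 * u.1, a.2.2 ++ u.2)) (Primrec.snd.comp Primrec.fst) ?_
  exact Primrec.pair
    (primrec_int_mul.comp (Primrec.fst.comp (Primrec.snd.comp Primrec.fst))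
      (Primrec.fst.comp Primrec.snd))
    (Primrec.list_append.comp (Primrec.snd.comp (Primrec.snd.comp Primrec.fst))
      (Primrec.snd.comp Primrec.snd))

theorem primrec_sq : Primrec sq := primrec_mulP.comp Primrec.id Primrec.id

theorem primrec_ren {f : ℕ → ℕ} (hf : Primrec f) : Primrec (ren f) := by
  refine Primrec.list_map (f := fun F : Poly => F) (g := fun _ t => (t.1, t.2.map f)) Primrec.id ?_
  refine Primrec.pair (Primrec.fst.comp Primrec.snd) ?_
  exact Primrec.list_map (f := fun a : Poly × (ℤ × List ℕ) => a.2.2) (g := fun _ k => f k)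
    (Primrec.snd.comp Primrec.snd) (hf.comp Primrec.snd)

theorem primrec_len : Primrec len := by
  have h1 : Primrec (fun F : Poly => F.map fun t => t.2.length) :=
    Primrec.list_map Primrec.id (Primrec.list_length.comp (Primrec.snd.comp Primrec.snd)).to₂
  exact Primrec.list_foldr h1 (Primrec.const 0)
    (Primrec.nat_add.comp (Primrec.fst.comp Primrec.snd) (Primrec.snd.comp Primrec.snd)).to₂

theorem primrec_hom (v d : ℕ) : Primrec (hom v d) := by
  refine Primrec.list_map (f := fun F : Poly => F)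
    (g := fun _ t => (t.1, t.2 ++ (List.range (d - t.2.length)).map fun _ => v)) Primrec.id ?_
  refine Primrec.pair (Primrec.fst.comp Primrec.snd) (Primrec.list_append.comp
    (Primrec.snd.comp Primrec.snd) ?_)
  exact Primrec.list_map (f := fun a : Poly × (ℤ × List ℕ) => List.range (d - a.2.2.length))
    (g := fun _ _ => v) (Primrec.list_range.comp (Primrec.nat_sub.comp (Primrec.const d)
      (Primrec.list_length.comp (Primrec.snd.comp Primrec.snd)))) (Primrec.const v).to₂

theorem primrec_hom' (v : ℕ) : Primrec (fun F => hom v (len F) F) := by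
  refine Primrec.list_map (f := fun F : Poly => F)
    (g := fun F t => (t.1, t.2 ++ (List.range (len F - t.2.length)).map fun _ => v)) Primrec.id ?_
  refine Primrec.pair (Primrec.fst.comp Primrec.snd) (Primrec.list_append.comp
    (Primrec.snd.comp Primrec.snd) ?_)
  exact Primrec.list_map (f := fun a : Poly × (ℤ × List ℕ) => List.range (len a.1 - a.2.2.length))
    (g := fun _ _ => v) (Primrec.list_range.comp (Primrec.nat_sub.comp (primrec_len.comp Primrec.fst)
      (Primrec.list_length.comp (Primrec.snd.comp Primrec.snd)))) (Primrec.const v).to₂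

theorem primrec_evI : Primrec (fun a : Poly × ℕ × List ℤ => evI a.1 a.2.1 a.2.2) := by
  have h1 : Primrec₂ (fun (m : List ℕ) (l : List ℤ) => m.foldr (fun v s => l.getD v 0 * s) 1) := by
    refine Primrec.list_foldr (f := fun a : List ℕ × List ℤ => a.1) (g := fun _ => (1 : ℤ))
      (h := fun a b => a.2.getD b.1 0 * b.2) Primrec.fst (Primrec.const 1) ?_
    exact primrec_int_mul.comp ((Primrec.list_getD 0).comp (Primrec.snd.comp Primrec.fst)
      (Primrec.fst.comp Primrec.snd)) (Primrec.snd.comp Primrec.snd)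
  have h2 : Primrec₂ (fun (n : ℕ) (B : ℕ) => (List.range n).foldr (fun _ s => (B : ℤ) * s) 1) := by
    refine Primrec.list_foldr (f := fun a : ℕ × ℕ => List.range a.1) (g := fun _ => (1 : ℤ))
      (h := fun a b => (a.2 : ℤ) * b.2) (Primrec.list_range.comp Primrec.fst) (Primrec.const 1) ?_
    exact primrec_int_mul.comp (primrec_int_cast.comp (Primrec.snd.comp Primrec.fst))
      (Primrec.snd.comp Primrec.snd)
  refine Primrec.list_foldr (f := fun a : Poly × ℕ × List ℤ => a.1) (g := fun _ => (0 : ℤ))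
    (h := fun a b => b.1.1 * b.1.2.foldr (fun v s => a.2.2.getD v 0 * s) 1 *
    (List.range (len a.1 - b.1.2.length)).foldr (fun _ s => (a.2.1 : ℤ) * s) 1 + b.2)
    Primrec.fst (Primrec.const 0) ?_
  have b1 : Primrec (fun a : (Poly × ℕ × List ℤ) × ((ℤ × List ℕ) × ℤ) => a.2.1.2) :=
    Primrec.snd.comp (Primrec.fst.comp Primrec.snd)
  refine primrec_int_add.comp (primrec_int_mul.comp (primrec_int_mul.comp
    (Primrec.fst.comp (Primrec.fst.comp Primrec.snd)) (h1.comp b1
      (Primrec.snd.comp (Primrec.snd.comp Primrec.fst)))) (h2.comp ?_ ?_))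
    (Primrec.snd.comp Primrec.snd)
  · exact Primrec.nat_sub.comp (primrec_len.comp (Primrec.fst.comp Primrec.fst))
      (Primrec.list_length.comp b1)
  · exact Primrec.fst.comp (Primrec.snd.comp Primrec.fst)

theorem primrec_par : Primrec (fun a : ℕ × ℕ => par a.1 a.2) := by
  have hb : Primrec (fun a : ℕ × ℕ => a.1 * (a.1 + 4)) :=
    Primrec.nat_mul.comp Primrec.fst (Primrec.nat_add.comp Primrec.fst (Primrec.const 4))
  have hc : Primrec (fun a : ℕ × ℕ => -((4 * a.2 * (a.1 * (a.1 + 4)) : ℕ) : ℤ)) :=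
    primrec_int_neg.comp (primrec_int_cast.comp (Primrec.nat_mul.comp
      (Primrec.nat_mul.comp (Primrec.const 4) Primrec.snd) hb))
  unfold par
  refine Primrec.list_cons.comp (Primrec.const 1) (Primrec.list_cons.comp (Primrec.const (-1))
    (Primrec.list_cons.comp (primrec_int_cast.comp Primrec.snd)
    (Primrec.list_cons.comp (primrec_int_cast.comp hb) (Primrec.list_cons.comp hc
    (Primrec.list_cons.comp (primrec_int_cast.comp Primrec.fst) (Primrec.const [7, 2]))))))

theorem primrec_nam : Primrec (fun a : (ℕ × ℕ × ℕ) × ℕ => nam a.1.1 a.1.2.1 a.1.2.2 a.2) := by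
  refine Primrec.ite (Primrec.eq.comp Primrec.snd (Primrec.const 0))
    (Primrec.nat_mul.comp (Primrec.const 2) (Primrec.fst.comp Primrec.fst)) ?_
  refine Primrec.succ.comp (Primrec.nat_mul.comp (Primrec.const 2) ?_)
  exact Primrec₂.natPair.comp (Primrec.fst.comp Primrec.fst) (Primrec₂.natPair.comp
    (Primrec.fst.comp (Primrec.snd.comp Primrec.fst)) (Primrec₂.natPair.comp
    (Primrec.snd.comp (Primrec.snd.comp Primrec.fst)) Primrec.snd))

theorem primrec_inst : Primrec (fun a : Tmp × ℕ × ℕ × ℕ => inst a.1 a.2.1 a.2.2.1 a.2.2.2) := by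
  refine Primrec.list_map (f := fun a : Tmp × ℕ × ℕ × ℕ => a.1)
    (g := fun a u => ((par a.2.2.1 a.2.2.2).getD u.1 0,
      u.2.map fun k => nam a.2.1 a.2.2.1 a.2.2.2 k)) Primrec.fst ?_
  refine Primrec.pair ?_ ?_
  · exact (Primrec.list_getD 0).comp (primrec_par.comp
      (Primrec.snd.comp (Primrec.snd.comp Primrec.fst))) (Primrec.fst.comp Primrec.snd)
  · refine Primrec.list_map (f := fun a : (Tmp × ℕ × ℕ × ℕ) × (ℕ × List ℕ) => a.2.2)
      (g := fun a k => nam a.1.2.1 a.1.2.2.1 a.1.2.2.2 k) (Primrec.snd.comp Primrec.snd) ?_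
    exact primrec_nam.comp (Primrec.pair (Primrec.snd.comp (Primrec.fst.comp Primrec.fst))
      Primrec.snd)

theorem primrec_gads : Primrec gads :=
  Primrec.ite (Primrec.eq.comp Primrec.id (Primrec.const 2)) (Primrec.const gadE)
    (Primrec.const gadO)

theorem primrec_trp : Primrec₂ trp := by
  refine Primrec.list_flatMap (f := fun a : ℕ × ℕ × ℕ => gads a.2.1)
    (g := fun a t => sq (inst t a.1 a.2.1 a.2.2))
    (primrec_gads.comp (Primrec.fst.comp Primrec.snd)) ?_
  exact primrec_sq.comp (primrec_inst.comp (Primrec.pair Primrec.snd Primrec.fst))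

theorem primrec_nest {t : ℕ → ℕ × ℕ → Poly} (ht : Primrec₂ t) :
    Primrec (fun a : List ℕ × List (ℕ × ℕ) => a.1.flatMap fun i => a.2.flatMap (t i)) := by
  have h1 : Primrec (fun a : ℕ × List (ℕ × ℕ) => a.2.flatMap (t a.1)) :=
    Primrec.list_flatMap (f := fun a : ℕ × List (ℕ × ℕ) => a.2)
      (g := fun a p => t a.1 p) Primrec.snd (ht.comp (Primrec.fst.comp Primrec.fst) Primrec.snd)
  have h : Primrec (fun b : (List ℕ × List (ℕ × ℕ)) × ℕ => ((b.2, b.1.2) : ℕ × List (ℕ × ℕ))) :=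
    Primrec.pair Primrec.snd (Primrec.snd.comp Primrec.fst)
  exact Primrec.list_flatMap (f := fun a : List ℕ × List (ℕ × ℕ) => a.1)
    (g := fun a i => a.2.flatMap (t i)) Primrec.fst (h1.comp h)

theorem primrec_tr : Primrec₂ tr := by
  have h1 : Primrec (fun a : Poly × List (ℕ × ℕ) => sq (ren (fun i => 2 * i) a.1)) :=
    primrec_sq.comp ((primrec_ren (Primrec.nat_mul.comp (Primrec.const 2) Primrec.id)).comp
      Primrec.fst)
  have h2 : Primrec (fun a : Poly × List (ℕ × ℕ) => ((vars a.1, a.2) : List ℕ × List (ℕ × ℕ))) :=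
    Primrec.pair (primrec_vars.comp Primrec.fst) Primrec.snd
  exact Primrec.list_append.comp h1 ((primrec_nest primrec_trp).comp h2)

end Vale.Agent.P027.B
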